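import Claimed.Agent.R099.Defs

/-! Row 99, S0212: the numerical bound (proof part 4, second half). -/

set_option autoImplicit false

namespace Claimed.Agent.R099

open Finset

lemma sum_choose_le (N K : ℕ) {y : ℝ} (hy : 0 ≤ y) :
    ∑ j ∈ range (K + 1), ((N.choose j : ℕ) : ℝ) * y ^ j ≤ Real.exp (N * y) := by
  have h1 : ∑ j ∈ range (K + 1), ((N.choose j : ℕ) : ℝ) * y ^ j
      = ∑ j ∈ (range (K + 1)).filter (fun j => j ≤ N), ((N.choose j : ℕ) : ℝ) * y ^ j := by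
    symm
    apply Finset.sum_filter_of_ne
    intro j _ hj
    by_contra hlt
    rw [not_le] at hlt
    apply hj
    rw [Nat.choose_eq_zero_of_lt hlt]
    simp
  have h2 : ∑ j ∈ (range (K + 1)).filter (fun j => j ≤ N), ((N.choose j : ℕ) : ℝ) * y ^ j
      ≤ ∑ j ∈ range (N + 1), ((N.choose j : ℕ) : ℝ) * y ^ j := by
    apply Finset.sum_le_sum_of_subset_of_nonneg
    · intro j hj
      rw [mem_filter] at hj
      rw [mem_range]
      omega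
    · intro j _ _
      positivity
  have h3 : ∑ j ∈ range (N + 1), ((N.choose j : ℕ) : ℝ) * y ^ j = (y + 1) ^ N := by
    rw [add_pow]
    apply Finset.sum_congr rfl
    intro j _
    simp
    ring
  have h4 : (y + 1) ^ N ≤ Real.exp (N * y) := by
    rw [Real.exp_nat_mul]
    exact pow_le_pow_left₀ (by positivity) (Real.add_one_le_exp y) N
  linarith

lemma sum_half_pow_le (R : ℕ) : ∑ t ∈ range R, (1 / 2 : ℝ) ^ t ≤ 2 := by
  have : ∑ t ∈ range R, (1 / 2 : ℝ) ^ t = 2 - 2 * (1 / 2) ^ R := by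
    induction R with
    | zero => simp
    | succ R ih => rw [sum_range_succ, ih, pow_succ]; ring
  rw [this]
  have : (0 : ℝ) ≤ 2 * (1 / 2) ^ R := by positivity
  linarith

/-- one value of `n` -/
lemma Bsum_inner_le (R K n : ℕ) (ρ : ℕ → ℝ) (hρ0 : ∀ t, 0 ≤ ρ t)
    (hρ : ∀ t, ρ t ≤ (4 / 3 : ℝ) * (1 / 2) ^ 18 * (1 / 4) ^ t) :
    ∑ u ∈ (Fintype.piFinset (fun _ : Fin R => range (K + 1))).filter
        (fun u => n ≤ 4 * ∑ t, u t),
      ∏ t : Fin R, (((n * 2 ^ (t : ℕ)).choose (u t) : ℕ) : ℝ) * ρ t ^ (u t)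
      ≤ (1 / 5 : ℝ) ^ n := by
  -- step 1: insert the factor
  have s1 : ∀ u ∈ (Fintype.piFinset (fun _ : Fin R => range (K + 1))).filter
        (fun u => n ≤ 4 * ∑ t, u t),
      ∏ t : Fin R, (((n * 2 ^ (t : ℕ)).choose (u t) : ℕ) : ℝ) * ρ t ^ (u t) ≤
      (1 / 16 : ℝ) ^ n * ∏ t : Fin R,
        (((n * 2 ^ (t : ℕ)).choose (u t) : ℕ) : ℝ) * ((16 : ℝ) ^ 4 * ρ t) ^ (u t) := by
    intro u hu
    rw [mem_filter] at hu
    have e : ∏ t : Fin R, (((n * 2 ^ (t : ℕ)).choose (u t) : ℕ) : ℝ) * ((16 : ℝ) ^ 4 * ρ t) ^ (u t)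
        = (16 : ℝ) ^ (4 * ∑ t, u t) *
          ∏ t : Fin R, (((n * 2 ^ (t : ℕ)).choose (u t) : ℕ) : ℝ) * ρ t ^ (u t) := by
      rw [pow_mul, ← Finset.prod_pow_eq_pow_sum, ← Finset.prod_mul_distrib]
      apply Finset.prod_congr rfl
      intro t _
      rw [mul_pow]; ring
    rw [e, ← mul_assoc]
    have hnn : 0 ≤ ∏ t : Fin R, (((n * 2 ^ (t : ℕ)).choose (u t) : ℕ) : ℝ) * ρ t ^ (u t) := by
      apply Finset.prod_nonneg
      intro t _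
      have := hρ0 t
      positivity
    have h1 : (1 : ℝ) ≤ (1 / 16 : ℝ) ^ n * (16 : ℝ) ^ (4 * ∑ t, u t) := by
      obtain ⟨d, hd⟩ := Nat.exists_eq_add_of_le hu.2
      rw [hd, pow_add, ← mul_assoc, ← mul_pow]
      norm_num
      exact one_le_pow₀ (by norm_num)
    calc _ = 1 * ∏ t : Fin R, (((n * 2 ^ (t : ℕ)).choose (u t) : ℕ) : ℝ) * ρ t ^ (u t) := by ring
      _ ≤ _ := by gcongr
  refine (Finset.sum_le_sum s1).trans ?_
  rw [← Finset.mul_sum]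
  -- step 2: drop the filter
  have s2 : ∑ u ∈ (Fintype.piFinset (fun _ : Fin R => range (K + 1))).filter
        (fun u => n ≤ 4 * ∑ t, u t), ∏ t : Fin R,
        (((n * 2 ^ (t : ℕ)).choose (u t) : ℕ) : ℝ) * ((16 : ℝ) ^ 4 * ρ t) ^ (u t)
      ≤ ∑ u ∈ (Fintype.piFinset (fun _ : Fin R => range (K + 1))), ∏ t : Fin R,
        (((n * 2 ^ (t : ℕ)).choose (u t) : ℕ) : ℝ) * ((16 : ℝ) ^ 4 * ρ t) ^ (u t) := by
    apply Finset.sum_le_sum_of_subset_of_nonneg (filter_subset _ _)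
    intro u _ _
    apply Finset.prod_nonneg
    intro t _
    have := hρ0 t
    positivity
  -- step 3: product of sums
  have s3 : ∑ u ∈ (Fintype.piFinset (fun _ : Fin R => range (K + 1))), ∏ t : Fin R,
        (((n * 2 ^ (t : ℕ)).choose (u t) : ℕ) : ℝ) * ((16 : ℝ) ^ 4 * ρ t) ^ (u t)
      = ∏ t : Fin R, ∑ j ∈ range (K + 1),
        (((n * 2 ^ (t : ℕ)).choose j : ℕ) : ℝ) * ((16 : ℝ) ^ 4 * ρ t) ^ j := by
    rw [Finset.prod_univ_sum]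
  have s4 : ∏ t : Fin R, ∑ j ∈ range (K + 1),
        (((n * 2 ^ (t : ℕ)).choose j : ℕ) : ℝ) * ((16 : ℝ) ^ 4 * ρ t) ^ j
      ≤ ∏ t : Fin R, Real.exp (((n * 2 ^ (t : ℕ) : ℕ) : ℝ) * ((16 : ℝ) ^ 4 * ρ t)) := by
    apply Finset.prod_le_prod
    · intro t _
      apply Finset.sum_nonneg
      intro j _
      have := hρ0 t
      positivity
    · intro t _
      apply sum_choose_le
      have := hρ0 t
      positivity
  have s5 : ∑ t : Fin R, ((n * 2 ^ (t : ℕ) : ℕ) : ℝ) * ((16 : ℝ) ^ 4 * ρ t) ≤ n := by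
    have h1 : ∀ t : Fin R, ((n * 2 ^ (t : ℕ) : ℕ) : ℝ) * ((16 : ℝ) ^ 4 * ρ t)
        ≤ (n : ℝ) * (1 / 3) * (1 / 2 : ℝ) ^ (t : ℕ) := by
      intro t
      have h2 := hρ t
      have e : (n : ℝ) * (1 / 3) * (1 / 2 : ℝ) ^ (t : ℕ)
          = ((n * 2 ^ (t : ℕ) : ℕ) : ℝ) * ((16 : ℝ) ^ 4 * ((4 / 3 : ℝ) * (1 / 2) ^ 18 * (1 / 4) ^ (t : ℕ))) := by
        push_cast
        have : (1 / 2 : ℝ) ^ (t : ℕ) = 2 ^ (t : ℕ) * (1 / 4) ^ (t : ℕ) := by
          rw [← mul_pow]; norm_num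
        rw [this]; ring
      rw [e]
      gcongr
    refine (Finset.sum_le_sum (fun t _ => h1 t)).trans ?_
    rw [← Finset.mul_sum, Fin.sum_univ_eq_sum_range (fun t => (1 / 2 : ℝ) ^ t) R]
    have := sum_half_pow_le R
    have hn : (0 : ℝ) ≤ n := Nat.cast_nonneg n
    nlinarith
  rw [← Real.exp_sum] at s4
  have s6 : Real.exp (∑ t : Fin R, ((n * 2 ^ (t : ℕ) : ℕ) : ℝ) * ((16 : ℝ) ^ 4 * ρ t))
      ≤ Real.exp 1 ^ n := by
    rw [← Real.exp_nat_mul, mul_one]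
    exact Real.exp_le_exp.2 s5
  have s7 : (1 / 16 : ℝ) ^ n * Real.exp 1 ^ n ≤ (1 / 5 : ℝ) ^ n := by
    rw [← mul_pow]
    apply pow_le_pow_left₀ (by positivity)
    have := Real.exp_one_lt_d9
    linarith
  calc _ ≤ (1 / 16 : ℝ) ^ n * Real.exp 1 ^ n := by
        gcongr
        linarith [s2, s3, s4, s6]
    _ ≤ _ := s7

lemma sum_fifth_pow_le (M : ℕ) : ∑ n ∈ Icc 1 M, (1 / 5 : ℝ) ^ n ≤ 1 / 4 := by
  have : ∑ n ∈ Icc 1 M, (1 / 5 : ℝ) ^ n = (1 - (1 / 5) ^ M) / 4 := by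
    induction M with
    | zero => simp
    | succ M ih => rw [Finset.sum_Icc_succ_top (by omega), ih, pow_succ]; ring
  rw [this]
  have : (0 : ℝ) ≤ (1 / 5) ^ M := by positivity
  linarith

theorem Bsum_le (R K : ℕ) (ρ : ℕ → ℝ) (hρ0 : ∀ t, 0 ≤ ρ t)
    (hρ : ∀ t, ρ t ≤ (4 / 3 : ℝ) * (1 / 2) ^ 18 * (1 / 4) ^ t) :
    Bsum R 4 K ρ ≤ 1 / 4 := by
  unfold Bsum
  exact (Finset.sum_le_sum (fun n _ => Bsum_inner_le R K n ρ hρ0 hρ)).trans (sum_fifth_pow_le _)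

end Claimed.Agent.R099
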