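import Claimed.Agent.R099.Defs

/-! Row 99, S0212: the descending chain (proof part 2). -/

set_option autoImplicit false

namespace Claimed.Agent.R099

open Finset

variable {α : Type*} [Fintype α] [DecidableEq α]
variable (R E : ℕ) (F : Finset (Finset α)) (rk : Finset α → α → ℕ)

omit [Fintype α] in
/-- two disjoint filters inside a set `T`. -/
lemma chain_card_add_le {s T : Finset α} (P Q : α → Prop) [DecidablePred P] [DecidablePred Q]
    (hd : ∀ x ∈ s, P x → Q x → False) (hP : ∀ x ∈ s, P x → x ∈ T) (hQ : ∀ x ∈ s, Q x → x ∈ T) :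
    (s.filter P).card + (s.filter Q).card ≤ T.card := by
  rw [← card_union_of_disjoint]
  · apply card_le_card
    intro x hx
    rcases mem_union.mp hx with h | h
    · exact hP x (mem_filter.mp h).1 (mem_filter.mp h).2
    · exact hQ x (mem_filter.mp h).1 (mem_filter.mp h).2
  · rw [disjoint_left]
    intro x h1 h2
    exact hd x (mem_filter.mp h1).1 (mem_filter.mp h1).2 (mem_filter.mp h2).2

/-- START: `H` is `E * |H|`-feasible for itself. -/
lemma feas_start {H : Finset α} (hH : H ∈ F) (δ : α → ℕ) :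
    Feas R E F rk (E * H.card) H δ H := by
  refine ⟨hH, filter_subset _ _, ?_⟩
  intro t _ m hm
  have h1 := chain_card_add_le (s := H) (T := H)
    (fun x => E * H.card * 2 ^ t < rk H x ∧ rk H x ≤ m ∧ t < δ x)
    (fun x => rk H x ≤ E * H.card * 2 ^ t ∧ tier R (E * H.card) (rk H x) < δ x)
    (fun x _ hp hq => by omega) (fun x hx _ => hx) (fun x hx _ => hx)
  calc _ ≤ E * 2 ^ t * H.card := Nat.mul_le_mul_left _ h1
    _ = E * H.card * 2 ^ t := by ring
    _ ≤ m := hm.le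

/-- DESCENT. -/
lemma feas_descent {n : ℕ} {H Y : Finset α} {δ : α → ℕ}
    (h : Feas R E F rk (n + 1) H δ Y) (hU : E * (viol R rk (n + 1) δ Y).card < n + 1) :
    Feas R E F rk n H δ Y := by
  obtain ⟨hY, ha, hb⟩ := h
  have hta : ∀ r, tier R (n + 1) r ≤ tier R n r := fun r => tier_anti (Nat.le_succ n)
  refine ⟨hY, ?_, ?_⟩
  · intro x hx
    apply ha
    rw [viol, mem_filter] at hx ⊢
    exact ⟨hx.1, lt_of_le_of_lt (hta _) hx.2⟩
  · intro t ht m hm
    have hmono : n * 2 ^ t ≤ (n + 1) * 2 ^ t := Nat.mul_le_mul_right _ (Nat.le_succ n)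
    by_cases hm2 : (n + 1) * 2 ^ t < m
    · refine le_trans (Nat.mul_le_mul_left _ ?_) (hb t ht m hm2)
      refine le_trans (chain_card_add_le (s := Y)
        (T := Y.filter (fun x => (n + 1) * 2 ^ t < rk Y x ∧ rk Y x ≤ m ∧ t < δ x) ∪
          Y.filter (fun x => rk Y x ≤ (n + 1) * 2 ^ t ∧ tier R (n + 1) (rk Y x) < δ x))
        _ _ (fun x _ hp hq => by omega) ?_ ?_) (card_union_le _ _)
      · intro x hx hp
        by_cases hr : (n + 1) * 2 ^ t < rk Y x
        · exact mem_union_left _ (mem_filter.mpr ⟨hx, hr, hp.2.1, hp.2.2⟩)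
        · refine mem_union_right _ (mem_filter.mpr ⟨hx, not_lt.mp hr, ?_⟩)
          exact lt_of_le_of_lt ((tier_le_iff ht).mpr (not_lt.mp hr)) hp.2.2
      · intro x hx hq
        exact mem_union_right _ (mem_filter.mpr ⟨hx, hq.1.trans hmono,
          lt_of_le_of_lt (hta _) hq.2⟩)
    · have hm3 : m ≤ (n + 1) * 2 ^ t := not_lt.mp hm2
      have h1 := chain_card_add_le (s := Y) (T := viol R rk (n + 1) δ Y)
        (fun x => n * 2 ^ t < rk Y x ∧ rk Y x ≤ m ∧ t < δ x)
        (fun x => rk Y x ≤ n * 2 ^ t ∧ tier R n (rk Y x) < δ x)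
        (fun x _ hp hq => by omega)
        (fun x hx hp => by
          rw [viol, mem_filter]
          exact ⟨hx, lt_of_le_of_lt ((tier_le_iff ht).mpr (hp.2.1.trans hm3)) hp.2.2⟩)
        (fun x hx hq => by
          rw [viol, mem_filter]
          exact ⟨hx, lt_of_le_of_lt (hta _) hq.2⟩)
      calc _ ≤ E * 2 ^ t * (viol R rk (n + 1) δ Y).card := Nat.mul_le_mul_left _ h1
        _ = E * (viol R rk (n + 1) δ Y).card * 2 ^ t := by ring
        _ ≤ n * 2 ^ t := Nat.mul_le_mul_right _ (Nat.lt_succ_iff.mp hU)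
        _ ≤ m := hm.le

/-- `0`-feasible means captured. -/
lemma captured_of_feas_zero (hrk1 : ∀ Y : Finset α, ∀ x ∈ Y, 1 ≤ rk Y x)
    {H Y : Finset α} {δ : α → ℕ} (h : Feas R E F rk 0 H δ Y) :
    Y ∈ F ∧ Captured R E rk δ Y := by
  obtain ⟨hY, _, hb⟩ := h
  refine ⟨hY, ?_⟩
  intro t ht m
  rcases Nat.eq_zero_or_pos m with rfl | hm
  · have : Y.filter (fun x => rk Y x ≤ 0 ∧ t < δ x) = ∅ := by
      rw [filter_eq_empty_iff]
      intro x hx hp
      have := hrk1 Y x hx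
      omega
    rw [this]; simp
  · have h1 := hb t ht m (by simpa using hm)
    refine le_trans (Nat.mul_le_mul_left _ ?_) h1
    refine le_trans (card_le_card ?_) (Nat.le_add_right _ _)
    intro x hx
    rw [mem_filter] at hx ⊢
    have := hrk1 Y x hx.1
    exact ⟨hx.1, by omega, hx.2.1, hx.2.2⟩

/-- going down the chain. -/
lemma chain_down (hrk1 : ∀ Y : Finset α, ∀ x ∈ Y, 1 ≤ rk Y x) (δ : α → ℕ) {H : Finset α}
    (hH : H ∈ F) (n : ℕ) (h : ∃ Y, Feas R E F rk n H δ Y) :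
    (∃ Y ∈ F, Captured R E rk δ Y) ∨ (∃ U ∈ Ucal R E F rk δ, U ⊆ H) := by
  classical
  induction n with
  | zero =>
    obtain ⟨Y, hY⟩ := h
    exact Or.inl ⟨Y, captured_of_feas_zero R E F rk hrk1 hY⟩
  | succ n ih =>
    obtain ⟨Y0, hY0⟩ := h
    have hne : (univ.filter (fun Y => Feas R E F rk (n + 1) H δ Y)).Nonempty :=
      ⟨Y0, mem_filter.mpr ⟨mem_univ _, hY0⟩⟩
    obtain ⟨Y, hY, hmin⟩ := exists_min_image _ (fun Y => low R rk (n + 1) δ Y) hne
    have hYf : Feas R E F rk (n + 1) H δ Y := (mem_filter.mp hY).2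
    by_cases hle : n + 1 ≤ E * (viol R rk (n + 1) δ Y).card
    · right
      refine ⟨viol R rk (n + 1) δ Y, mem_Ucal.mpr ?_, hYf.2.1⟩
      exact ⟨H, hH, n + 1, Nat.succ_le_succ (Nat.zero_le n), Y, hYf,
        fun Z hZ => hmin Z (mem_filter.mpr ⟨mem_univ _, hZ⟩), rfl, hle⟩
    · exact ih ⟨Y, feas_descent R E F rk hYf (not_le.mp hle)⟩

/-- For every `δ`: a captured member exists or `Ucal δ` covers `F`. -/
theorem covers_or_captured (hrk1 : ∀ Y : Finset α, ∀ x ∈ Y, 1 ≤ rk Y x) (δ : α → ℕ) :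
    (∃ Y ∈ F, Captured R E rk δ Y) ∨ (∀ H ∈ F, ∃ U ∈ Ucal R E F rk δ, U ⊆ H) := by
  by_cases hc : ∃ Y ∈ F, Captured R E rk δ Y
  · exact Or.inl hc
  · right
    intro H hH
    rcases chain_down R E F rk hrk1 δ hH (E * H.card) ⟨H, feas_start R E F rk hH δ⟩ with h | h
    · exact absurd h hc
    · exact h

end Claimed.Agent.R099
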