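import Claimed.Agent.R099.Defs

/-! Row 99, S0212: counting admissible sets (end of proof part 3). -/

set_option autoImplicit false

namespace Claimed.Agent.R099

open Finset

variable {α : Type*} [Fintype α] [DecidableEq α]
variable (R E : ℕ) (F : Finset (Finset α)) (rk : Finset α → α → ℕ)

/-- weight of `U` in terms of its profile -/
lemma prod_eq_prof {δ' : α → ℕ} {U : Finset α} (hU : ∀ x ∈ U, δ' x < R) (ρ : ℕ → ℝ) :
    ∏ x ∈ U, ρ (δ' x) = ∏ t : Fin R, ρ t ^ (profF R δ' U t) := by
  have h1 : ∏ t ∈ range R, ∏ x ∈ U with δ' x = t, ρ (δ' x) = ∏ x ∈ U, ρ (δ' x) :=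
    Finset.prod_fiberwise_of_maps_to (fun x hx => mem_range.2 (hU x hx)) _
  rw [← h1, Finset.prod_range]
  refine Finset.prod_congr rfl ?_
  intro t _
  unfold profF
  rw [← Finset.prod_const]
  refine Finset.prod_congr rfl ?_
  intro x hx
  rw [(mem_filter.1 hx).2]

lemma sum_profF {δ' : α → ℕ} {U : Finset α} (hU : ∀ x ∈ U, δ' x < R) :
    ∑ t : Fin R, profF R δ' U t = U.card := by
  have h1 : U.card = ∑ t ∈ range R, (U.filter (fun x => δ' x = t)).card :=
    Finset.card_eq_sum_card_fiberwise (fun x hx => mem_coe.2 (mem_range.2 (hU x hx)))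
  rw [h1, Finset.sum_range]
  rfl

open Classical in
/-- number of admissible sets with a given profile -/
lemma card_adm_le (hrk2 : ∀ (Y : Finset α) (m : ℕ), (Y.filter (fun x => rk Y x ≤ m)).card ≤ m)
    (n : ℕ) (δ' : α → ℕ) (u : Fin R → ℕ) :
    ((univ : Finset (Finset α)).filter
      (fun U => Adm R E F rk n δ' U ∧ profF R δ' U = u)).card
      ≤ ∏ t : Fin R, (n * 2 ^ (t : ℕ)).choose (u t) := by
  set Z := psi R E F rk n δ' u with hZ
  set pre : Fin R → Finset α := fun t => Z.filter (fun x => rk Z x ≤ n * 2 ^ (t : ℕ)) with hpre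
  have hcard : ((univ : Finset (Finset α)).filter
      (fun U => Adm R E F rk n δ' U ∧ profF R δ' U = u)).card
      ≤ (Fintype.piFinset (fun t : Fin R => powersetCard (u t) (pre t))).card := by
    refine Finset.card_le_card_of_injOn
      (fun U => fun t : Fin R => U.filter (fun x => δ' x = (t : ℕ))) ?_ ?_
    · intro U hU
      have hU' := (mem_filter.1 (mem_coe.1 hU)).2
      obtain ⟨hA, hP⟩ := hU'
      rw [mem_coe, Fintype.mem_piFinset]
      intro t
      rw [mem_powersetCard]
      refine ⟨?_, ?_⟩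
      · intro x hx
        obtain ⟨hxU, hxt⟩ := mem_filter.1 hx
        obtain ⟨_, h2, h3⟩ := hA x hxU
        rw [hP] at h2 h3
        rw [hpre, mem_filter]
        refine ⟨h2, ?_⟩
        rw [← hxt]
        exact h3
      · have := congrFun hP t
        exact this
    · intro U hU U' hU' hEq
      have hA := (mem_filter.1 (mem_coe.1 hU)).2.1
      have hA' := (mem_filter.1 (mem_coe.1 hU')).2.1
      have key : ∀ (V V' : Finset α), (∀ x ∈ V, δ' x < R) →
          (fun t : Fin R => V.filter (fun x => δ' x = (t : ℕ)))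
            = (fun t : Fin R => V'.filter (fun x => δ' x = (t : ℕ))) → V ⊆ V' := by
        intro V V' hV h x hx
        have h1 := congrFun h ⟨δ' x, hV x hx⟩
        have h2 : x ∈ V.filter (fun y => δ' y = δ' x) := mem_filter.2 ⟨hx, rfl⟩
        have h3 : x ∈ V'.filter (fun y => δ' y = δ' x) := by
          have h1' : V.filter (fun y => δ' y = δ' x) = V'.filter (fun y => δ' y = δ' x) := h1
          rw [← h1']; exact h2
        exact (mem_filter.1 h3).1
      exact Finset.Subset.antisymm (key U U' (fun x hx => (hA x hx).1) hEq)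
        (key U' U (fun x hx => (hA' x hx).1) hEq.symm)
  refine hcard.trans ?_
  rw [Fintype.card_piFinset]
  refine Finset.prod_le_prod' ?_
  intro t _
  rw [card_powersetCard]
  exact Nat.choose_le_choose _ (hrk2 Z _)

open Classical in
theorem count_adm (hrk2 : ∀ (Y : Finset α) (m : ℕ), (Y.filter (fun x => rk Y x ≤ m)).card ≤ m)
    (n : ℕ) (δ' : α → ℕ) (ρ : ℕ → ℝ) (hρ : ∀ t, 0 ≤ ρ t) :
    ∑ U ∈ (univ : Finset (Finset α)).filter
        (fun U => Adm R E F rk n δ' U ∧ n ≤ E * U.card), ∏ x ∈ U, ρ (δ' x)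
      ≤ ∑ u ∈ (Fintype.piFinset (fun _ : Fin R => range (Fintype.card α + 1))).filter
          (fun u => n ≤ E * ∑ t, u t),
        ∏ t : Fin R, (((n * 2 ^ (t : ℕ)).choose (u t) : ℕ) : ℝ) * ρ t ^ (u t) := by
  set S := (univ : Finset (Finset α)).filter
        (fun U => Adm R E F rk n δ' U ∧ n ≤ E * U.card) with hS
  set T := (Fintype.piFinset (fun _ : Fin R => range (Fintype.card α + 1))).filter
          (fun u => n ≤ E * ∑ t, u t) with hT
  have hmaps : ∀ U ∈ S, profF R δ' U ∈ T := by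
    intro U hU
    obtain ⟨hA, hn⟩ := (mem_filter.1 hU).2
    rw [hT, mem_filter, Fintype.mem_piFinset]
    refine ⟨?_, ?_⟩
    · intro t
      rw [mem_range, Nat.lt_succ_iff]
      exact (card_le_card (filter_subset _ _)).trans (card_le_univ U)
    · rw [sum_profF R (fun x hx => (hA x hx).1)]
      exact hn
  rw [← Finset.sum_fiberwise_of_maps_to hmaps]
  refine Finset.sum_le_sum ?_
  intro u _
  have h1 : ∑ U ∈ S with profF R δ' U = u, ∏ x ∈ U, ρ (δ' x)
      = ∑ U ∈ S with profF R δ' U = u, ∏ t : Fin R, ρ t ^ (u t) := by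
    refine Finset.sum_congr rfl ?_
    intro U hU
    obtain ⟨hUS, hP⟩ := mem_filter.1 hU
    have hA := (mem_filter.1 hUS).2.1
    rw [prod_eq_prof R (fun x hx => (hA x hx).1), hP]
  rw [h1, Finset.sum_const, nsmul_eq_mul, Finset.prod_mul_distrib]
  have hnn : 0 ≤ ∏ t : Fin R, ρ t ^ (u t) :=
    Finset.prod_nonneg (fun t _ => pow_nonneg (hρ _) _)
  refine mul_le_mul_of_nonneg_right ?_ hnn
  have h2 : (S.filter (fun U => profF R δ' U = u)).card
      ≤ ∏ t : Fin R, (n * 2 ^ (t : ℕ)).choose (u t) := by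
    refine le_trans (card_le_card ?_) (card_adm_le R E F rk hrk2 n δ' u)
    intro U hU
    obtain ⟨hUS, hP⟩ := mem_filter.1 hU
    have hA := (mem_filter.1 hUS).2.1
    exact mem_filter.2 ⟨mem_univ _, hA, hP⟩
  calc ((S.filter (fun U => profF R δ' U = u)).card : ℝ)
      ≤ ((∏ t : Fin R, (n * 2 ^ (t : ℕ)).choose (u t) : ℕ) : ℝ) := by exact_mod_cast h2
    _ = ∏ t : Fin R, (((n * 2 ^ (t : ℕ)).choose (u t) : ℕ) : ℝ) := by push_cast; rfl

end Claimed.Agent.R099
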