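import Claimed.Agent.R099.Defs

/-! Row 99, S0212: the decoder lemma (proof part 3). -/

set_option autoImplicit false

namespace Claimed.Agent.R099

open Finset

variable {α : Type*} [Fintype α] [DecidableEq α]
variable (R E : ℕ) (F : Finset (Finset α)) (rk : Finset α → α → ℕ)

/-- lowered depth -/
def lowered (n : ℕ) (δ : α → ℕ) (Y : Finset α) : α → ℕ :=
  fun x => if x ∈ Y then min (δ x) (tier R n (rk Y x)) else δ x

omit [Fintype α] in
lemma lowered_le (n : ℕ) (δ : α → ℕ) (Y : Finset α) (x : α) : lowered R rk n δ Y x ≤ δ x := by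
  unfold lowered
  split_ifs
  · exact min_le_left _ _
  · exact le_rfl

omit [Fintype α] in
lemma lowered_of_mem {n : ℕ} {δ : α → ℕ} {Y : Finset α} {x : α} (hx : x ∈ Y) :
    lowered R rk n δ Y x = min (δ x) (tier R n (rk Y x)) := by
  unfold lowered
  rw [if_pos hx]

omit [Fintype α] in
lemma lowered_of_viol {n : ℕ} {δ : α → ℕ} {Y : Finset α} {x : α} (hx : x ∈ viol R rk n δ Y) :
    lowered R rk n δ Y x = tier R n (rk Y x) := by
  rw [viol, mem_filter] at hx
  rw [lowered_of_mem R rk hx.1, min_eq_right hx.2.le]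

omit [Fintype α] in
lemma viol_of_lowered_lt {n : ℕ} {δ : α → ℕ} {Y : Finset α} {x : α}
    (hx : lowered R rk n δ Y x < δ x) : x ∈ viol R rk n δ Y := by
  unfold lowered at hx
  split_ifs at hx with h
  · rw [viol, mem_filter]
    refine ⟨h, ?_⟩
    rcases min_lt_iff.mp hx with h1 | h1
    · exact (lt_irrefl _ h1).elim
    · exact h1
  · exact (lt_irrefl _ hx).elim

omit [Fintype α] in
lemma lowered_lt_of_viol {n : ℕ} {δ : α → ℕ} {Y : Finset α} {x : α}
    (hx : x ∈ viol R rk n δ Y) : lowered R rk n δ Y x < δ x := by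
  rw [lowered_of_viol R rk hx]
  rw [viol, mem_filter] at hx
  exact hx.2

omit [Fintype α] [DecidableEq α] in
/-- cumulative profile of a set on which `δ' < R` -/
lemma cumF_profF {δ' : α → ℕ} {U : Finset α} (hU : ∀ x ∈ U, δ' x < R) (t : ℕ) :
    cumF (profF R δ' U) t = (U.filter (fun x => δ' x ≤ t)).card := by
  have h1 : (U.filter (fun x => δ' x ≤ t)).card =
      ∑ s ∈ range R, ((U.filter (fun x => δ' x ≤ t)).filter (fun x => δ' x = s)).card := by
    apply card_eq_sum_card_fiberwise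
    intro x hx
    have hx' := (mem_filter.mp (mem_coe.mp hx)).1
    exact mem_coe.mpr (mem_range.mpr (hU x hx'))
  rw [h1, cumF, ← Fin.sum_univ_eq_sum_range
    (fun s => ((U.filter (fun x => δ' x ≤ t)).filter (fun x => δ' x = s)).card) R]
  refine sum_congr rfl fun s _ => ?_
  unfold profF
  split_ifs with hs
  · congr 1
    ext x
    simp only [mem_filter]
    constructor
    · rintro ⟨h1, h2⟩; exact ⟨⟨h1, by omega⟩, h2⟩
    · rintro ⟨⟨h1, _⟩, h2⟩; exact ⟨h1, h2⟩
  · symm
    rw [card_eq_zero, filter_eq_empty_iff]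
    intro x hx
    have := (mem_filter.mp hx).2
    omega

omit [Fintype α] in
lemma lowered_lt_R_of_viol {n : ℕ} {δ : α → ℕ} {Y : Finset α} (hδ : ∀ x, δ x ≤ R) {x : α}
    (hx : x ∈ viol R rk n δ Y) : lowered R rk n δ Y x < R :=
  lt_of_lt_of_le (lowered_lt_of_viol R rk hx) (hδ x)

omit [Fintype α] in
/-- (i) `Y` itself is a candidate. -/
lemma cand_self {n : ℕ} {H Y : Finset α} {δ : α → ℕ} (hδ : ∀ x, δ x ≤ R)
    (h : Feas R E F rk n H δ Y) :
    Cand R E F rk n (lowered R rk n δ Y) (profF R (lowered R rk n δ Y) (viol R rk n δ Y)) Y := by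
  refine ⟨h.1, ?_, ?_⟩
  · intro x hx
    rw [lowered_of_mem R rk hx]
    exact min_le_right _ _
  · intro t ht m hm
    have hb := h.2.2 t ht m hm
    rw [cumF_profF R (fun x hx => lowered_lt_R_of_viol R rk hδ hx)]
    have e1 : Y.filter (fun x => rk Y x ≤ m ∧ t < lowered R rk n δ Y x) =
        Y.filter (fun x => n * 2 ^ t < rk Y x ∧ rk Y x ≤ m ∧ t < δ x) := by
      apply filter_congr
      intro x hx
      rw [lowered_of_mem R rk hx, lt_min_iff, lt_tier_iff ht]
      tauto
    have e2 : (viol R rk n δ Y).filter (fun x => lowered R rk n δ Y x ≤ t) =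
        Y.filter (fun x => rk Y x ≤ n * 2 ^ t ∧ tier R n (rk Y x) < δ x) := by
      ext x
      simp only [mem_filter]
      constructor
      · rintro ⟨hx, hxt⟩
        rw [lowered_of_viol R rk hx, tier_le_iff ht] at hxt
        rw [viol, mem_filter] at hx
        exact ⟨hx.1, hxt, hx.2⟩
      · rintro ⟨hx, hr, hv⟩
        have hxv : x ∈ viol R rk n δ Y := by
          rw [viol, mem_filter]; exact ⟨hx, hv⟩
        refine ⟨hxv, ?_⟩
        rw [lowered_of_viol R rk hxv, tier_le_iff ht]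
        exact hr
    rw [e1, e2]
    exact hb

omit [Fintype α] in
/-- (ii) every candidate is feasible. -/
lemma feas_of_cand {n : ℕ} {H Y Z : Finset α} {δ : α → ℕ} (hδ : ∀ x, δ x ≤ R)
    (h : Feas R E F rk n H δ Y)
    (hZ : Cand R E F rk n (lowered R rk n δ Y)
      (profF R (lowered R rk n δ Y) (viol R rk n δ Y)) Z) :
    Feas R E F rk n H δ Z := by
  obtain ⟨hZF, hZa, hZb⟩ := hZ
  refine ⟨hZF, ?_, ?_⟩
  · intro x hx
    rw [viol, mem_filter] at hx
    apply h.2.1
    apply viol_of_lowered_lt R rk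
    exact lt_of_le_of_lt (hZa x hx.1) hx.2
  · intro t ht m hm
    have hb := hZb t ht m hm
    rw [cumF_profF R (fun x hx => lowered_lt_R_of_viol R rk hδ hx)] at hb
    refine le_trans (Nat.mul_le_mul_left _ ?_) hb
    set A := Z.filter (fun x => n * 2 ^ t < rk Z x ∧ rk Z x ≤ m ∧ t < δ x) with hA
    set B := Z.filter (fun x => rk Z x ≤ n * 2 ^ t ∧ tier R n (rk Z x) < δ x) with hB
    set C := Z.filter (fun x => rk Z x ≤ m ∧ t < lowered R rk n δ Y x) with hC
    set D := (viol R rk n δ Y).filter (fun x => lowered R rk n δ Y x ≤ t) with hD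
    have hdisj : Disjoint A B := by
      rw [disjoint_left]
      intro x hxA hxB
      rw [hA, mem_filter] at hxA
      rw [hB, mem_filter] at hxB
      omega
    have hsub : A ∪ B ⊆ C ∪ D := by
      intro x hx
      rw [mem_union] at hx ⊢
      rcases hx with hx | hx
      · rw [hA, mem_filter] at hx
        by_cases hl : t < lowered R rk n δ Y x
        · left
          rw [hC, mem_filter]
          exact ⟨hx.1, hx.2.2.1, hl⟩
        · right
          rw [not_lt] at hl
          rw [hD, mem_filter]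
          exact ⟨viol_of_lowered_lt R rk (lt_of_le_of_lt hl hx.2.2.2), hl⟩
      · rw [hB, mem_filter] at hx
        right
        rw [hD, mem_filter]
        have h1 := hZa x hx.1
        exact ⟨viol_of_lowered_lt R rk (lt_of_le_of_lt h1 hx.2.2),
          h1.trans ((tier_le_iff ht).mpr hx.2.1)⟩
    calc A.card + B.card = (A ∪ B).card := (card_union_of_disjoint hdisj).symm
      _ ≤ (C ∪ D).card := card_le_card hsub
      _ ≤ C.card + D.card := card_union_le _ _

/-- the total lowering is the sum of `δ - δ'` -/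
lemma low_eq_sum (n : ℕ) (δ : α → ℕ) (Y : Finset α) :
    low R rk n δ Y = ∑ x, (δ x - lowered R rk n δ Y x) := by
  unfold low
  rw [← sum_subset (subset_univ Y)]
  · refine sum_congr rfl fun x hx => ?_
    rw [lowered_of_mem R rk hx]
    omega
  · intro x _ hx
    unfold lowered
    rw [if_neg hx]
    omega

/-- (iii) minimality forces `U` into the prefixes of any candidate. -/
lemma adm_of_min {n : ℕ} {Y Z : Finset α} {δ : α → ℕ} (hδ : ∀ x, δ x ≤ R)
    (hZ : ∀ x ∈ Z, lowered R rk n δ Y x ≤ tier R n (rk Z x))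
    (hmin : low R rk n δ Y ≤ low R rk n δ Z) :
    ∀ x ∈ viol R rk n δ Y, lowered R rk n δ Y x < R ∧ x ∈ Z ∧
      rk Z x ≤ n * 2 ^ (lowered R rk n δ Y x) := by
  intro x0 hx0
  have hlt := lowered_lt_of_viol R rk hx0
  have hR := lowered_lt_R_of_viol R rk hδ hx0
  rw [low_eq_sum] at hmin
  have hle : ∀ x ∈ Z, δ x - tier R n (rk Z x) ≤ δ x - lowered R rk n δ Y x := by
    intro x hx
    have := hZ x hx
    omega
  have h1 : low R rk n δ Z ≤ ∑ x ∈ Z, (δ x - lowered R rk n δ Y x) := sum_le_sum hle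
  have hx0Z : x0 ∈ Z := by
    by_contra hne
    have h2 : ∑ x ∈ Z, (δ x - lowered R rk n δ Y x) < ∑ x, (δ x - lowered R rk n δ Y x) :=
      sum_lt_sum_of_subset (subset_univ Z) (mem_univ x0) hne (by omega) (fun _ _ _ => Nat.zero_le _)
    omega
  refine ⟨hR, hx0Z, ?_⟩
  have h3 : ∑ x ∈ Z, (δ x - lowered R rk n δ Y x) ≤ ∑ x, (δ x - lowered R rk n δ Y x) :=
    sum_le_sum_of_subset (subset_univ Z)
  have h4 : tier R n (rk Z x0) ≤ lowered R rk n δ Y x0 := by
    by_contra hgt
    rw [not_le] at hgt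
    have h5 : low R rk n δ Z < ∑ x ∈ Z, (δ x - lowered R rk n δ Y x) :=
      sum_lt_sum hle ⟨x0, hx0Z, by omega⟩
    omega
  exact (tier_le_iff hR).mp h4

theorem decoder {δ : α → ℕ} (hδ : δ ∈ depths α R) {U : Finset α}
    (hU : U ∈ Ucal R E F rk δ) :
    ∃ δ' ∈ depths α R, ∃ n, 1 ≤ n ∧ n ≤ E * U.card ∧ (∀ x, x ∉ U → δ x = δ' x) ∧
      Adm R E F rk n δ' U := by
  rw [mem_depths] at hδ
  obtain ⟨H, -, n, hn, Y, hFeas, hmin, rfl, hnU⟩ := mem_Ucal.mp hU
  refine ⟨lowered R rk n δ Y, ?_, n, hn, hnU, ?_, ?_⟩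
  · rw [mem_depths]
    exact fun x => (lowered_le R rk n δ Y x).trans (hδ x)
  · intro x hx
    by_contra hne
    exact hx (viol_of_lowered_lt R rk (lt_of_le_of_ne (lowered_le R rk n δ Y x) (Ne.symm hne)))
  · have hc := psi_spec ⟨Y, cand_self R E F rk hδ hFeas⟩
    have hf := feas_of_cand R E F rk hδ hFeas hc
    exact adm_of_min R rk hδ hc.2.1 (hmin _ hf)

end Claimed.Agent.R099
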