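import Mathlib
import Claimed.Prelude.Def_0177

/-! Row 99, S0212: depth selector. Definitions and basic facts on `tier`. -/

set_option autoImplicit false

namespace Claimed.Agent.R099

open Finset

variable {α : Type*} [Fintype α] [DecidableEq α]

/-- `tier R n r` = least `t < R` with `r ≤ n * 2 ^ t`, and `R` if there is none. -/
def tier (R n r : ℕ) : ℕ := ((range R).filter (fun t => n * 2 ^ t < r)).card

lemma tier_le (R n r : ℕ) : tier R n r ≤ R := by
  unfold tier
  calc _ ≤ (range R).card := card_filter_le _ _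
    _ = R := card_range R

lemma tier_le_iff {R n r t : ℕ} (ht : t < R) : tier R n r ≤ t ↔ r ≤ n * 2 ^ t := by
  unfold tier
  constructor
  · intro h
    by_contra hlt
    rw [not_le] at hlt
    have hsub : range (t + 1) ⊆ (range R).filter (fun s => n * 2 ^ s < r) := by
      intro s hs
      rw [mem_range] at hs
      rw [mem_filter, mem_range]
      refine ⟨by omega, lt_of_le_of_lt ?_ hlt⟩
      exact Nat.mul_le_mul_left n (Nat.pow_le_pow_right (by norm_num) (by omega))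
    have := card_le_card hsub
    rw [card_range] at this
    omega
  · intro h
    have hsub : (range R).filter (fun s => n * 2 ^ s < r) ⊆ range t := by
      intro s hs
      rw [mem_filter, mem_range] at hs
      rw [mem_range]
      by_contra hst
      rw [not_lt] at hst
      have : n * 2 ^ t ≤ n * 2 ^ s :=
        Nat.mul_le_mul_left n (Nat.pow_le_pow_right (by norm_num) hst)
      omega
    have := card_le_card hsub
    rwa [card_range] at this

lemma lt_tier_iff {R n r t : ℕ} (ht : t < R) : t < tier R n r ↔ n * 2 ^ t < r := by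
  rw [← not_le, tier_le_iff ht, not_le]

lemma tier_anti {R n n' r : ℕ} (h : n ≤ n') : tier R n' r ≤ tier R n r := by
  unfold tier
  apply card_le_card
  intro s hs
  rw [mem_filter] at hs ⊢
  exact ⟨hs.1, lt_of_le_of_lt (Nat.mul_le_mul_right _ h) hs.2⟩

lemma tier_zero {R r : ℕ} (hr : 1 ≤ r) : tier R 0 r = R := by
  unfold tier
  rw [filter_true_of_mem, card_range]
  intro s _
  omega

/-- The space of depth functions `α → {0..R}`. -/
def depths (α : Type*) [Fintype α] [DecidableEq α] (R : ℕ) : Finset (α → ℕ) :=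
  Fintype.piFinset (fun _ => range (R + 1))

lemma mem_depths {R : ℕ} {δ : α → ℕ} : δ ∈ depths α R ↔ ∀ x, δ x ≤ R := by
  simp [depths, Fintype.mem_piFinset]

/-- product weight of a depth function -/
def wt (π : ℕ → ℝ) (δ : α → ℕ) : ℝ := ∏ x, π (δ x)

/-- violators -/
def viol (R : ℕ) (rk : Finset α → α → ℕ) (n : ℕ) (δ : α → ℕ) (Y : Finset α) : Finset α :=
  Y.filter (fun x => tier R n (rk Y x) < δ x)

/-- `Y` is `n`-feasible for `(H, δ)`. -/
def Feas (R E : ℕ) (F : Finset (Finset α)) (rk : Finset α → α → ℕ) (n : ℕ) (H : Finset α)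
    (δ : α → ℕ) (Y : Finset α) : Prop :=
  Y ∈ F ∧ viol R rk n δ Y ⊆ H ∧
  ∀ t < R, ∀ m, n * 2 ^ t < m →
    E * 2 ^ t * ((Y.filter (fun x => n * 2 ^ t < rk Y x ∧ rk Y x ≤ m ∧ t < δ x)).card
      + (Y.filter (fun x => rk Y x ≤ n * 2 ^ t ∧ tier R n (rk Y x) < δ x)).card) ≤ m

/-- `Y` is captured by `δ`. -/
def Captured (R E : ℕ) (rk : Finset α → α → ℕ) (δ : α → ℕ) (Y : Finset α) : Prop :=
  ∀ t < R, ∀ m, E * 2 ^ t * (Y.filter (fun x => rk Y x ≤ m ∧ t < δ x)).card ≤ m

/-- total lowering -/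
def low (R : ℕ) (rk : Finset α → α → ℕ) (n : ℕ) (δ : α → ℕ) (Y : Finset α) : ℕ :=
  ∑ x ∈ Y, (δ x - tier R n (rk Y x))

/-- `U` is a cover set produced at depth function `δ`. -/
def IsGood (R E : ℕ) (F : Finset (Finset α)) (rk : Finset α → α → ℕ) (δ : α → ℕ)
    (U : Finset α) : Prop :=
  ∃ H ∈ F, ∃ n, 1 ≤ n ∧ ∃ Y, Feas R E F rk n H δ Y ∧
    (∀ Z, Feas R E F rk n H δ Z → low R rk n δ Y ≤ low R rk n δ Z) ∧
    U = viol R rk n δ Y ∧ n ≤ E * U.card

open Classical in
/-- the cover attached to `δ` -/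
noncomputable def Ucal (R E : ℕ) (F : Finset (Finset α)) (rk : Finset α → α → ℕ) (δ : α → ℕ) :
    Finset (Finset α) :=
  univ.filter (fun U => IsGood R E F rk δ U)

omit [DecidableEq α] in
lemma mem_Ucal {R E : ℕ} {F : Finset (Finset α)} {rk : Finset α → α → ℕ} {δ : α → ℕ}
    {U : Finset α} : U ∈ Ucal R E F rk δ ↔ IsGood R E F rk δ U := by
  simp [Ucal]

/-- profile of `U` with respect to `δ'` -/
def profF (R : ℕ) (δ' : α → ℕ) (U : Finset α) : Fin R → ℕ :=
  fun t => (U.filter (fun x => δ' x = (t : ℕ))).card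

/-- cumulative profile -/
def cumF {R : ℕ} (u : Fin R → ℕ) (t : ℕ) : ℕ := ∑ s : Fin R, if (s : ℕ) ≤ t then u s else 0

/-- candidates for the decoder -/
def Cand (R E : ℕ) (F : Finset (Finset α)) (rk : Finset α → α → ℕ) (n : ℕ) (δ' : α → ℕ)
    (u : Fin R → ℕ) (Z : Finset α) : Prop :=
  Z ∈ F ∧ (∀ x ∈ Z, δ' x ≤ tier R n (rk Z x)) ∧
  ∀ t < R, ∀ m, n * 2 ^ t < m →
    E * 2 ^ t * ((Z.filter (fun x => rk Z x ≤ m ∧ t < δ' x)).card + cumF u t) ≤ m

open Classical in
/-- canonical candidate -/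
noncomputable def psi (R E : ℕ) (F : Finset (Finset α)) (rk : Finset α → α → ℕ) (n : ℕ)
    (δ' : α → ℕ) (u : Fin R → ℕ) : Finset α :=
  if h : ∃ Z, Cand R E F rk n δ' u Z then h.choose else ∅

omit [DecidableEq α] in
lemma psi_spec {R E : ℕ} {F : Finset (Finset α)} {rk : Finset α → α → ℕ} {n : ℕ}
    {δ' : α → ℕ} {u : Fin R → ℕ} (h : ∃ Z, Cand R E F rk n δ' u Z) :
    Cand R E F rk n δ' u (psi R E F rk n δ' u) := by
  unfold psi
  rw [dif_pos h]
  exact h.choose_spec

/-- `U` is admissible for `(δ', n)`: it can be read off from the canonical candidate. -/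
def Adm (R E : ℕ) (F : Finset (Finset α)) (rk : Finset α → α → ℕ) (n : ℕ) (δ' : α → ℕ)
    (U : Finset α) : Prop :=
  ∀ x ∈ U, δ' x < R ∧ x ∈ psi R E F rk n δ' (profF R δ' U) ∧
    rk (psi R E F rk n δ' (profF R δ' U)) x ≤ n * 2 ^ (δ' x)

/-- the purely numerical bound -/
noncomputable def Bsum (R E K : ℕ) (ρ : ℕ → ℝ) : ℝ :=
  ∑ n ∈ Icc 1 (E * K),
    ∑ u ∈ (Fintype.piFinset (fun _ : Fin R => range (K + 1))).filter
        (fun u => n ≤ E * ∑ t, u t),
      ∏ t : Fin R, (((n * 2 ^ (t : ℕ)).choose (u t) : ℕ) : ℝ) * ρ t ^ (u t)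

end Claimed.Agent.R099
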