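import Claimed.Agent.R099.Defs

/-! Row 99, S0212: the weights `piW` and the product measure on depth functions. -/

set_option autoImplicit false

namespace Claimed.Agent.R099

open Finset

variable {α : Type*} [Fintype α] [DecidableEq α]

/-- `P(depth = t)`: `P(depth ≤ t) = 4 ^ t * (1/4) ^ R`. -/
noncomputable def piW (R t : ℕ) : ℝ :=
  if t = 0 then (1 / 4 : ℝ) ^ R else (3 / 4 : ℝ) * 4 ^ t * (1 / 4 : ℝ) ^ R

lemma piW_pos (R t : ℕ) : 0 < piW R t := by
  unfold piW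
  split_ifs <;> positivity

lemma piW_sum_aux (R k : ℕ) : ∑ t ∈ range (k + 1), piW R t = 4 ^ k * (1 / 4 : ℝ) ^ R := by
  induction k with
  | zero => simp [piW]
  | succ k ih =>
    rw [sum_range_succ, ih]
    unfold piW
    rw [if_neg (Nat.succ_ne_zero k), pow_succ]
    ring

lemma piW_sum (R : ℕ) : ∑ t ∈ range (R + 1), piW R t = 1 := by
  rw [piW_sum_aux, ← mul_pow]
  norm_num

lemma piW_le (R t : ℕ) : piW R t ≤ 4 ^ t * (1 / 4 : ℝ) ^ R := by
  unfold piW
  split_ifs with h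
  · subst h; simp
  · have : (0:ℝ) < 4 ^ t * (1 / 4 : ℝ) ^ R := by positivity
    nlinarith

lemma piW_ge (R t : ℕ) : (3 / 4 : ℝ) * 4 ^ t * (1 / 4 : ℝ) ^ R ≤ piW R t := by
  unfold piW
  split_ifs with h
  · subst h
    have : (0:ℝ) < (1 / 4 : ℝ) ^ R := by positivity
    simp only [pow_zero, mul_one]
    nlinarith
  · exact le_rfl

lemma piW_sum8 (R : ℕ) :
    ∑ t ∈ range (R + 1), piW R t * (1 / 8 : ℝ) ^ t ≤ 2 * (1 / 4 : ℝ) ^ R := by
  have h1 : ∀ t ∈ range (R + 1), piW R t * (1 / 8 : ℝ) ^ t ≤ (1 / 4 : ℝ) ^ R * (1 / 2 : ℝ) ^ t := by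
    intro t _
    have h := piW_le R t
    have h8 : (0:ℝ) ≤ (1 / 8 : ℝ) ^ t := by positivity
    calc piW R t * (1 / 8 : ℝ) ^ t ≤ (4 ^ t * (1 / 4 : ℝ) ^ R) * (1 / 8 : ℝ) ^ t :=
          mul_le_mul_of_nonneg_right h h8
      _ = (1 / 4 : ℝ) ^ R * ((4 : ℝ) * (1 / 8)) ^ t := by rw [mul_pow]; ring
      _ = (1 / 4 : ℝ) ^ R * (1 / 2 : ℝ) ^ t := by norm_num
  have h2 : ∀ k : ℕ, ∑ t ∈ range k, (1 / 2 : ℝ) ^ t ≤ 2 := by
    intro k
    have hk : ∑ t ∈ range k, (1 / 2 : ℝ) ^ t = 2 - 2 * (1 / 2 : ℝ) ^ k := by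
      induction k with
      | zero => simp
      | succ k ih => rw [sum_range_succ, ih, pow_succ]; ring
    rw [hk]
    have : (0:ℝ) ≤ (1 / 2 : ℝ) ^ k := by positivity
    linarith
  calc ∑ t ∈ range (R + 1), piW R t * (1 / 8 : ℝ) ^ t
      ≤ ∑ t ∈ range (R + 1), (1 / 4 : ℝ) ^ R * (1 / 2 : ℝ) ^ t := sum_le_sum h1
    _ = (1 / 4 : ℝ) ^ R * ∑ t ∈ range (R + 1), (1 / 2 : ℝ) ^ t := by rw [mul_sum]
    _ ≤ (1 / 4 : ℝ) ^ R * 2 := mul_le_mul_of_nonneg_left (h2 _) (by positivity)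
    _ = 2 * (1 / 4 : ℝ) ^ R := by ring

omit [DecidableEq α] in
lemma wt_nonneg {π : ℕ → ℝ} (hπ : ∀ t, 0 ≤ π t) (δ : α → ℕ) : 0 ≤ wt π δ :=
  prod_nonneg (fun x _ => hπ (δ x))

/-- general product formula: expectation of a product of one-coordinate functions -/
lemma sum_wt_mul_prod (R : ℕ) (π : ℕ → ℝ) (f : α → ℕ → ℝ) :
    ∑ δ ∈ depths α R, wt π δ * ∏ x, f x (δ x)
      = ∏ x, ∑ t ∈ range (R + 1), π t * f x t := by
  unfold depths wt
  rw [prod_univ_sum]
  apply sum_congr rfl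
  intro δ _
  rw [prod_mul_distrib]

lemma wt_sum (R : ℕ) {π : ℕ → ℝ} (hsum : ∑ t ∈ range (R + 1), π t = 1) :
    ∑ δ ∈ depths α R, wt π δ = 1 := by
  have h := sum_wt_mul_prod (α := α) R π (fun _ _ => 1)
  simp only [prod_const_one, mul_one, hsum] at h
  exact h

/-- total weight of the depth functions that agree with `δ'` off `U` -/
lemma sum_wt_agree (R : ℕ) {π : ℕ → ℝ} (hpos : ∀ t, 0 < π t)
    (hsum : ∑ t ∈ range (R + 1), π t = 1) {δ' : α → ℕ} (hδ' : δ' ∈ depths α R)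
    (U : Finset α) :
    ∑ δ ∈ (depths α R).filter (fun δ => ∀ x, x ∉ U → δ x = δ' x), wt π δ
      = wt π δ' * ∏ x ∈ U, (1 / π (δ' x)) := by
  have hset : (depths α R).filter (fun δ => ∀ x, x ∉ U → δ x = δ' x)
      = Fintype.piFinset (fun x => if x ∈ U then range (R + 1) else {δ' x}) := by
    ext δ
    rw [mem_filter, mem_depths, Fintype.mem_piFinset]
    constructor
    · rintro ⟨h1, h2⟩ x
      by_cases hx : x ∈ U
      · rw [if_pos hx, mem_range]; exact Nat.lt_succ_of_le (h1 x)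
      · rw [if_neg hx, mem_singleton]; exact h2 x hx
    · intro h
      refine ⟨fun x => ?_, fun x hx => ?_⟩
      · have := h x
        by_cases hx : x ∈ U
        · rw [if_pos hx, mem_range] at this; omega
        · rw [if_neg hx, mem_singleton] at this
          rw [this]; exact mem_depths.mp hδ' x
      · have := h x
        rwa [if_neg hx, mem_singleton] at this
  rw [hset]
  unfold wt
  rw [← prod_univ_sum (fun x => if x ∈ U then range (R + 1) else {δ' x}) (fun _ t => π t)]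
  have h1 : ∀ x : α, (∑ t ∈ (if x ∈ U then range (R + 1) else {δ' x}), π t)
      = π (δ' x) * (if x ∈ U then 1 / π (δ' x) else 1) := by
    intro x
    by_cases hx : x ∈ U
    · rw [if_pos hx, if_pos hx, hsum]
      field_simp [(hpos (δ' x)).ne']
    · rw [if_neg hx, if_neg hx, sum_singleton, mul_one]
  rw [prod_congr rfl (fun x _ => h1 x), prod_mul_distrib]
  congr 1
  rw [prod_ite_mem, univ_inter]

end Claimed.Agent.R099
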