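import Claimed.Agent.R099.Rank
import Claimed.Agent.R099.Weights

/-! Row 99, S0212: the rare event (proof part 5). -/

set_option autoImplicit false

namespace Claimed.Agent.R099

open Finset

variable {α : Type*} [Fintype α] [DecidableEq α]

/-- `lambda^Y_x = sum_{x ∈ A ⊆ Y} g(A)/|A|` -/
noncomputable def lamOf (g : Finset α → ℝ) (Y : Finset α) (x : α) : ℝ :=
  ∑ A ∈ Y.powerset.filter (fun A => x ∈ A), g A / A.card

noncomputable def rkOf (g : Finset α → ℝ) (Y : Finset α) (x : α) : ℕ :=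
  wrank (lamOf g Y) Y x

noncomputable def Gam (g : Finset α → ℝ) (δ : α → ℕ) : ℝ :=
  ∑ A : Finset α, if ∑ x ∈ A, δ x ≤ A.card then g A else 0

lemma lamOf_nonneg {g : Finset α → ℝ} (hg : ∀ A, 0 ≤ g A) (Y : Finset α) (x : α) :
    0 ≤ lamOf g Y x := by
  unfold lamOf
  exact sum_nonneg (fun A _ => div_nonneg (hg A) (Nat.cast_nonneg _))

/-- `sum_x lambda_x w(x) = sum_{A ⊆ Y} g(A) w(A)/|A|` -/
lemma sum_lamOf_mul (g : Finset α → ℝ) (Y : Finset α) (w : α → ℝ) :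
    ∑ x ∈ Y, lamOf g Y x * w x = ∑ A ∈ Y.powerset, g A * ((∑ x ∈ A, w x) / A.card) := by
  unfold lamOf
  have h1 : ∀ x ∈ Y, (∑ A ∈ Y.powerset.filter (fun A => x ∈ A), g A / A.card) * w x
      = ∑ A ∈ Y.powerset, if x ∈ A then g A / A.card * w x else 0 := by
    intro x _
    rw [sum_mul, sum_filter]
  rw [sum_congr rfl h1, sum_comm]
  refine sum_congr rfl (fun A hA => ?_)
  rw [mem_powerset] at hA
  rw [← sum_filter]
  have h2 : Y.filter (fun x => x ∈ A) = A := by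
    ext x
    rw [mem_filter]
    exact ⟨fun h => h.2, fun h => ⟨hA h, h⟩⟩
  rw [h2, ← mul_sum]
  ring

lemma sum_lamOf {g : Finset α → ℝ} (hg0 : g ∅ = 0) (Y : Finset α) :
    ∑ x ∈ Y, lamOf g Y x = ∑ A ∈ Y.powerset, g A := by
  have h := sum_lamOf_mul g Y (fun _ => (1 : ℝ))
  simp only [mul_one] at h
  rw [h]
  refine sum_congr rfl (fun A _ => ?_)
  rcases A.eq_empty_or_nonempty with rfl | hne
  · simp [hg0]
  · have hc : (A.card : ℝ) ≠ 0 := by
      exact_mod_cast (card_pos.2 hne).ne'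
    rw [sum_const, nsmul_eq_mul, mul_one, div_self hc, mul_one]

lemma gam_geom_le (R : ℕ) : ∑ t ∈ range R, (1 / (4 * 2 ^ t) : ℝ) ≤ 1 / 2 := by
  have h : ∀ R : ℕ, ∑ t ∈ range R, (1 / (4 * 2 ^ t) : ℝ) = 1 / 2 - 1 / (2 * 2 ^ R) := by
    intro R
    induction R with
    | zero => simp
    | succ R ih =>
      rw [sum_range_succ, ih, pow_succ]
      have : (2 : ℝ) ^ R ≠ 0 := by positivity
      field_simp
      ring
  rw [h]
  have : (0 : ℝ) ≤ 1 / (2 * 2 ^ R) := by positivity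
  linarith

/-- captured: the weighted mean depth is small -/
lemma sum_lamOf_depth_le {g : Finset α → ℝ} (hg : ∀ A, 0 ≤ g A) (hg0 : g ∅ = 0) (R : ℕ)
    {Y : Finset α} {δ : α → ℕ} (hδ : ∀ x, δ x ≤ R) (hcap : Captured R 4 (rkOf g) δ Y) :
    ∑ x ∈ Y, lamOf g Y x * (δ x : ℝ) ≤ (1 / 2 : ℝ) * ∑ A ∈ Y.powerset, g A := by
  have hG : 0 ≤ ∑ x ∈ Y, lamOf g Y x := sum_nonneg (fun x _ => lamOf_nonneg hg Y x)
  have hd : ∀ x, (δ x : ℝ) = ∑ t ∈ range R, if t < δ x then (1 : ℝ) else 0 := by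
    intro x
    rw [← sum_filter, sum_const, nsmul_eq_mul, mul_one]
    have : (range R).filter (fun t => t < δ x) = range (δ x) := by
      ext t
      rw [mem_filter, mem_range, mem_range]
      exact ⟨fun h => h.2, fun h => ⟨lt_of_lt_of_le h (hδ x), h⟩⟩
    rw [this, card_range]
  have h1 : ∑ x ∈ Y, lamOf g Y x * (δ x : ℝ)
      = ∑ t ∈ range R, ∑ x ∈ Y.filter (fun x => t < δ x), lamOf g Y x := by
    have : ∀ x ∈ Y, lamOf g Y x * (δ x : ℝ)
        = ∑ t ∈ range R, if t < δ x then lamOf g Y x else 0 := by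
      intro x _
      rw [hd x, mul_sum]
      refine sum_congr rfl (fun t _ => ?_)
      split_ifs <;> simp
    rw [sum_congr rfl this, sum_comm]
    refine sum_congr rfl (fun t _ => ?_)
    rw [sum_filter]
  have h2 : ∀ t ∈ range R, ∑ x ∈ Y.filter (fun x => t < δ x), lamOf g Y x
      ≤ (1 / (4 * 2 ^ t) : ℝ) * ∑ x ∈ Y, lamOf g Y x := by
    intro t ht
    rw [mem_range] at ht
    refine layer_cake (lamOf g Y) Y _ (filter_subset _ _) (fun x _ => lamOf_nonneg hg Y x)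
      _ (by positivity) ?_
    intro m
    have h3 := hcap t ht m
    have h4 : (Y.filter (fun x => t < δ x)).filter (fun x => wrank (lamOf g Y) Y x ≤ m)
        = Y.filter (fun x => rkOf g Y x ≤ m ∧ t < δ x) := by
      rw [filter_filter]
      refine filter_congr (fun x _ => ?_)
      unfold rkOf
      exact and_comm
    rw [h4]
    have h5 : ((4 : ℝ) * 2 ^ t) * ((Y.filter (fun x => rkOf g Y x ≤ m ∧ t < δ x)).card : ℝ)
        ≤ (m : ℝ) := by
      exact_mod_cast h3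
    have hpos : (0 : ℝ) < 4 * 2 ^ t := by positivity
    rw [one_div, inv_mul_eq_div, le_div_iff₀ hpos]
    linarith
  rw [h1, ← sum_lamOf hg0 Y]
  calc ∑ t ∈ range R, ∑ x ∈ Y.filter (fun x => t < δ x), lamOf g Y x
      ≤ ∑ t ∈ range R, (1 / (4 * 2 ^ t) : ℝ) * ∑ x ∈ Y, lamOf g Y x := sum_le_sum h2
    _ = (∑ t ∈ range R, (1 / (4 * 2 ^ t) : ℝ)) * ∑ x ∈ Y, lamOf g Y x := by rw [sum_mul]
    _ ≤ (1 / 2 : ℝ) * ∑ x ∈ Y, lamOf g Y x := mul_le_mul_of_nonneg_right (gam_geom_le R) hG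

theorem gam_ge_of_captured {g : Finset α → ℝ} (hg : ∀ A, 0 ≤ g A) (hg0 : g ∅ = 0) (R : ℕ)
    {Y : Finset α} (hY : 1 ≤ ∑ A ∈ Y.powerset, g A) {δ : α → ℕ} (hδ : ∀ x, δ x ≤ R)
    (hcap : Captured R 4 (rkOf g) δ Y) : 1 / 2 ≤ Gam g δ := by
  have h1 := sum_lamOf_depth_le hg hg0 R hδ hcap
  rw [sum_lamOf_mul] at h1
  have h2 : ∑ A ∈ Y.powerset, (if ∑ x ∈ A, δ x ≤ A.card then g A else 0) ≤ Gam g δ := by
    unfold Gam
    refine sum_le_sum_of_subset_of_nonneg (subset_univ _) (fun A _ _ => ?_)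
    split_ifs
    · exact hg A
    · exact le_refl _
  have h3 : ∀ A ∈ Y.powerset, g A ≤ (if ∑ x ∈ A, δ x ≤ A.card then g A else 0)
      + g A * ((∑ x ∈ A, (δ x : ℝ)) / A.card) := by
    intro A _
    have hs : (0 : ℝ) ≤ ∑ x ∈ A, (δ x : ℝ) := sum_nonneg (fun x _ => Nat.cast_nonneg _)
    split_ifs with hA
    · have : 0 ≤ g A * ((∑ x ∈ A, (δ x : ℝ)) / A.card) :=
        mul_nonneg (hg A) (div_nonneg hs (Nat.cast_nonneg _))
      linarith
    · rw [not_le] at hA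
      rcases A.eq_empty_or_nonempty with rfl | hne
      · simp [hg0]
      · have hc : (0 : ℝ) < (A.card : ℝ) := by exact_mod_cast card_pos.2 hne
        have hlt : (A.card : ℝ) ≤ ∑ x ∈ A, (δ x : ℝ) := by
          exact_mod_cast hA.le
        have : (1 : ℝ) ≤ (∑ x ∈ A, (δ x : ℝ)) / A.card := by
          rw [le_div_iff₀ hc]
          linarith
        have := mul_le_mul_of_nonneg_left this (hg A)
        linarith
  have h4 := sum_le_sum h3
  rw [sum_add_distrib] at h4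
  linarith

end Claimed.Agent.R099
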