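import Claimed.Agent.R099.Gamma

/-! Row 99, S0212: expectation of the rare-event functional (proof part 5, first half). -/

set_option autoImplicit false

namespace Claimed.Agent.R099

open Finset

variable {α : Type*} [Fintype α] [DecidableEq α]

lemma prod_ite_eighth (A : Finset α) (δ : α → ℕ) :
    ∏ x, (if x ∈ A then (1 / 8 : ℝ) ^ (δ x) else 1) = (1 / 8 : ℝ) ^ (∑ x ∈ A, δ x) := by
  rw [prod_ite_mem, univ_inter, prod_pow_eq_pow_sum]

/-- pointwise bound of the indicator -/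
lemma indicator_le (A : Finset α) (δ : α → ℕ) :
    (if ∑ x ∈ A, δ x ≤ A.card then (1 : ℝ) else 0)
      ≤ 8 ^ A.card * ∏ x, (if x ∈ A then (1 / 8 : ℝ) ^ (δ x) else 1) := by
  rw [prod_ite_eighth]
  split_ifs with h
  · have h1 : (1 / 8 : ℝ) ^ A.card ≤ (1 / 8 : ℝ) ^ (∑ x ∈ A, δ x) :=
      pow_le_pow_of_le_one (by norm_num) (by norm_num) h
    have h2 : (8 : ℝ) ^ A.card * (1 / 8 : ℝ) ^ A.card = 1 := by
      rw [← mul_pow]; norm_num
    calc (1 : ℝ) = (8 : ℝ) ^ A.card * (1 / 8 : ℝ) ^ A.card := h2.symm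
      _ ≤ 8 ^ A.card * (1 / 8 : ℝ) ^ (∑ x ∈ A, δ x) :=
          mul_le_mul_of_nonneg_left h1 (by positivity)
  · positivity

theorem exp_gam_le {g : Finset α → ℝ} (hg : ∀ A, 0 ≤ g A) (R : ℕ) {π : ℕ → ℝ}
    (hπ : ∀ t, 0 ≤ π t) (hsum : ∑ t ∈ range (R + 1), π t = 1) {s : ℝ}
    (hs : ∑ t ∈ range (R + 1), π t * (1 / 8 : ℝ) ^ t ≤ s) :
    ∑ δ ∈ depths α R, wt π δ * Gam g δ ≤ ∑ A : Finset α, g A * (8 * s) ^ A.card := by
  have hs0 : 0 ≤ ∑ t ∈ range (R + 1), π t * (1 / 8 : ℝ) ^ t :=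
    sum_nonneg (fun t _ => mul_nonneg (hπ t) (by positivity))
  have hA : ∀ A : Finset α,
      ∑ δ ∈ depths α R, wt π δ * ∏ x, (if x ∈ A then (1 / 8 : ℝ) ^ (δ x) else 1)
        = (∑ t ∈ range (R + 1), π t * (1 / 8 : ℝ) ^ t) ^ A.card := by
    intro A
    rw [sum_wt_mul_prod R π (fun x t => if x ∈ A then (1 / 8 : ℝ) ^ t else 1)]
    have h1 : ∀ x : α, (∑ t ∈ range (R + 1), π t * (if x ∈ A then (1 / 8 : ℝ) ^ t else 1))
        = if x ∈ A then (∑ t ∈ range (R + 1), π t * (1 / 8 : ℝ) ^ t) else 1 := by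
      intro x
      by_cases hx : x ∈ A
      · simp only [if_pos hx]
      · simp only [if_neg hx, mul_one, hsum]
    rw [prod_congr rfl (fun x _ => h1 x), prod_ite_mem, univ_inter, prod_const]
  calc ∑ δ ∈ depths α R, wt π δ * Gam g δ
      ≤ ∑ δ ∈ depths α R, ∑ A : Finset α, g A * (8 ^ A.card *
          (wt π δ * ∏ x, (if x ∈ A then (1 / 8 : ℝ) ^ (δ x) else 1))) := by
        apply sum_le_sum
        intro δ _
        unfold Gam
        rw [mul_sum]
        apply sum_le_sum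
        intro A _
        have hw := wt_nonneg hπ δ
        have hi := indicator_le A δ
        have e1 : (if ∑ x ∈ A, δ x ≤ A.card then g A else 0)
            = g A * (if ∑ x ∈ A, δ x ≤ A.card then (1 : ℝ) else 0) := by
          split_ifs <;> simp
        rw [e1]
        calc wt π δ * (g A * (if ∑ x ∈ A, δ x ≤ A.card then (1 : ℝ) else 0))
            ≤ wt π δ * (g A * (8 ^ A.card *
                ∏ x, (if x ∈ A then (1 / 8 : ℝ) ^ (δ x) else 1))) :=
              mul_le_mul_of_nonneg_left (mul_le_mul_of_nonneg_left hi (hg A)) hw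
          _ = _ := by ring
    _ = ∑ A : Finset α, g A * (8 ^ A.card *
          ∑ δ ∈ depths α R, wt π δ * ∏ x, (if x ∈ A then (1 / 8 : ℝ) ^ (δ x) else 1)) := by
        rw [sum_comm]
        apply sum_congr rfl
        intro A _
        rw [mul_sum, mul_sum]
    _ ≤ ∑ A : Finset α, g A * (8 * s) ^ A.card := by
        apply sum_le_sum
        intro A _
        rw [hA A, mul_pow]
        exact mul_le_mul_of_nonneg_left
          (mul_le_mul_of_nonneg_left (pow_le_pow_left₀ hs0 hs _) (by positivity)) (hg A)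

end Claimed.Agent.R099
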