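import Claimed.Agent.R099.Weights
import Claimed.Agent.R099.Decoder
import Claimed.Agent.R099.Count

/-! Row 99, S0212: change of measure (proof part 4, first half). -/

set_option autoImplicit false

namespace Claimed.Agent.R099

open Finset

variable {α : Type*} [Fintype α] [DecidableEq α]
variable (R E : ℕ) (F : Finset (Finset α)) (rk : Finset α → α → ℕ)

/-- the relation between `(δ, U)` and the decoded data `(δ', n)` -/
def decRel (δ δ' : α → ℕ) (n : ℕ) (U : Finset α) : Prop :=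
  (∀ x, x ∉ U → δ x = δ' x) ∧ (Adm R E F rk n δ' U ∧ n ≤ E * U.card)

open Classical in
/-- one pair `(δ, U)` is dominated by the sum over all decoded data -/
lemma cost_term_le {π : ℕ → ℝ} (hpos : ∀ t, 0 < π t) {p0 : ℝ} (hp0 : 0 ≤ p0)
    {δ : α → ℕ} (hδ : δ ∈ depths α R) {U : Finset α} (hU : U ∈ Ucal R E F rk δ) :
    wt π δ * p0 ^ U.card ≤ ∑ δ' ∈ depths α R, ∑ n ∈ Icc 1 (E * Fintype.card α),
      if decRel R E F rk δ δ' n U then wt π δ * p0 ^ U.card else 0 := by
  have hw : 0 ≤ wt π δ * p0 ^ U.card :=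
    mul_nonneg (wt_nonneg (fun t => (hpos t).le) δ) (pow_nonneg hp0 _)
  obtain ⟨δ', hδ', n, hn1, hn2, hag, hadm⟩ := decoder R E F rk hδ hU
  have hnK : n ∈ Icc 1 (E * Fintype.card α) := by
    rw [mem_Icc]
    exact ⟨hn1, hn2.trans (Nat.mul_le_mul_left _ (card_le_univ U))⟩
  have hrel : decRel R E F rk δ δ' n U := ⟨hag, hadm, hn2⟩
  calc wt π δ * p0 ^ U.card
      = if decRel R E F rk δ δ' n U then wt π δ * p0 ^ U.card else 0 := by rw [if_pos hrel]
    _ ≤ ∑ n ∈ Icc 1 (E * Fintype.card α),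
          if decRel R E F rk δ δ' n U then wt π δ * p0 ^ U.card else 0 :=
        single_le_sum (f := fun n => if decRel R E F rk δ δ' n U then wt π δ * p0 ^ U.card else 0)
          (fun m _ => by split_ifs <;> [exact hw; exact le_rfl]) hnK
    _ ≤ _ :=
        single_le_sum (f := fun δ' => ∑ n ∈ Icc 1 (E * Fintype.card α),
            if decRel R E F rk δ δ' n U then wt π δ * p0 ^ U.card else 0)
          (fun d _ => sum_nonneg fun m _ => by split_ifs <;> [exact hw; exact le_rfl]) hδ'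

open Classical in
/-- the sum over `δ` for fixed decoded data -/
lemma cost_inner_eq {π : ℕ → ℝ} (hpos : ∀ t, 0 < π t) (hsum : ∑ t ∈ range (R + 1), π t = 1)
    {p0 : ℝ} {δ' : α → ℕ} (hδ' : δ' ∈ depths α R) (n : ℕ) (U : Finset α) :
    ∑ δ ∈ depths α R, (if decRel R E F rk δ δ' n U then wt π δ * p0 ^ U.card else 0)
      = if Adm R E F rk n δ' U ∧ n ≤ E * U.card then
          wt π δ' * ∏ x ∈ U, (p0 / π (δ' x)) else 0 := by
  by_cases h : Adm R E F rk n δ' U ∧ n ≤ E * U.card
  · rw [if_pos h]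
    have h1 : ∀ δ : α → ℕ, (if decRel R E F rk δ δ' n U then wt π δ * p0 ^ U.card else 0)
        = if (∀ x, x ∉ U → δ x = δ' x) then wt π δ * p0 ^ U.card else 0 := by
      intro δ
      by_cases hag : ∀ x, x ∉ U → δ x = δ' x
      · rw [if_pos hag, if_pos ⟨hag, h⟩]
      · rw [if_neg hag, if_neg (fun hr => hag hr.1)]
    simp only [h1]
    rw [← sum_filter, ← sum_mul]
    have h2 := sum_wt_agree R hpos hsum hδ' U
    have h3 : ∑ δ ∈ (depths α R).filter (fun δ => ∀ x, x ∉ U → δ x = δ' x), wt π δ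
        = wt π δ' * ∏ x ∈ U, (1 / π (δ' x)) := by
      convert h2
    rw [h3, mul_assoc]
    congr 1
    rw [← prod_const, ← prod_mul_distrib]
    refine prod_congr rfl fun x _ => ?_
    ring
  · rw [if_neg h]
    refine sum_eq_zero fun δ _ => ?_
    rw [if_neg (fun hr => h hr.2)]

theorem cost_le_Bsum
    (hrk2 : ∀ (Y : Finset α) (m : ℕ), (Y.filter (fun x => rk Y x ≤ m)).card ≤ m)
    {π : ℕ → ℝ} (hpos : ∀ t, 0 < π t) (hsum : ∑ t ∈ range (R + 1), π t = 1)
    {p0 : ℝ} (hp0 : 0 ≤ p0) :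
    ∑ δ ∈ depths α R, wt π δ * ∑ U ∈ Ucal R E F rk δ, p0 ^ U.card
      ≤ Bsum R E (Fintype.card α) (fun t => p0 / π t) := by
  classical
  have hwt : ∀ δ : α → ℕ, 0 ≤ wt π δ := wt_nonneg (fun t => (hpos t).le)
  -- step 1-2: dominate by the full quadruple sum
  have s1 : ∑ δ ∈ depths α R, wt π δ * ∑ U ∈ Ucal R E F rk δ, p0 ^ U.card
      ≤ ∑ δ ∈ depths α R, ∑ U : Finset α, ∑ δ' ∈ depths α R,
          ∑ n ∈ Icc 1 (E * Fintype.card α),
            if decRel R E F rk δ δ' n U then wt π δ * p0 ^ U.card else 0 := by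
    refine sum_le_sum fun δ hδ => ?_
    rw [mul_sum]
    calc ∑ U ∈ Ucal R E F rk δ, wt π δ * p0 ^ U.card
        ≤ ∑ U ∈ Ucal R E F rk δ, ∑ δ' ∈ depths α R, ∑ n ∈ Icc 1 (E * Fintype.card α),
            if decRel R E F rk δ δ' n U then wt π δ * p0 ^ U.card else 0 :=
          sum_le_sum fun U hU => by
            convert cost_term_le R E F rk hpos hp0 hδ hU
      _ ≤ _ := by
          refine sum_le_sum_of_subset_of_nonneg (subset_univ _) fun U _ _ => ?_
          refine sum_nonneg fun d _ => sum_nonneg fun m _ => ?_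
          split_ifs
          · exact mul_nonneg (hwt δ) (pow_nonneg hp0 _)
          · exact le_rfl
  -- step 3: reorder
  have s2 : ∑ δ ∈ depths α R, ∑ U : Finset α, ∑ δ' ∈ depths α R,
          ∑ n ∈ Icc 1 (E * Fintype.card α),
            (if decRel R E F rk δ δ' n U then wt π δ * p0 ^ U.card else 0)
      = ∑ δ' ∈ depths α R, ∑ n ∈ Icc 1 (E * Fintype.card α), ∑ U : Finset α,
          ∑ δ ∈ depths α R,
            (if decRel R E F rk δ δ' n U then wt π δ * p0 ^ U.card else 0) := by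
    calc _ = ∑ δ ∈ depths α R, ∑ δ' ∈ depths α R, ∑ U : Finset α,
          ∑ n ∈ Icc 1 (E * Fintype.card α),
            (if decRel R E F rk δ δ' n U then wt π δ * p0 ^ U.card else 0) :=
          sum_congr rfl fun δ _ => sum_comm
      _ = ∑ δ' ∈ depths α R, ∑ δ ∈ depths α R, ∑ U : Finset α,
          ∑ n ∈ Icc 1 (E * Fintype.card α),
            (if decRel R E F rk δ δ' n U then wt π δ * p0 ^ U.card else 0) := sum_comm
      _ = ∑ δ' ∈ depths α R, ∑ δ ∈ depths α R, ∑ n ∈ Icc 1 (E * Fintype.card α),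
          ∑ U : Finset α,
            (if decRel R E F rk δ δ' n U then wt π δ * p0 ^ U.card else 0) :=
          sum_congr rfl fun δ' _ => sum_congr rfl fun δ _ => sum_comm
      _ = ∑ δ' ∈ depths α R, ∑ n ∈ Icc 1 (E * Fintype.card α), ∑ δ ∈ depths α R,
          ∑ U : Finset α,
            (if decRel R E F rk δ δ' n U then wt π δ * p0 ^ U.card else 0) :=
          sum_congr rfl fun δ' _ => sum_comm
      _ = _ := sum_congr rfl fun δ' _ => sum_congr rfl fun n _ => sum_comm
  -- step 4-6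
  have s3 : ∀ δ' ∈ depths α R, ∀ n ∈ Icc 1 (E * Fintype.card α),
      ∑ U : Finset α, ∑ δ ∈ depths α R,
            (if decRel R E F rk δ δ' n U then wt π δ * p0 ^ U.card else 0)
      ≤ wt π δ' * ∑ u ∈ (Fintype.piFinset (fun _ : Fin R => range (Fintype.card α + 1))).filter
          (fun u => n ≤ E * ∑ t, u t),
        ∏ t : Fin R, (((n * 2 ^ (t : ℕ)).choose (u t) : ℕ) : ℝ) * (p0 / π t) ^ (u t) := by
    intro δ' hδ' n _
    have e1 : ∑ U : Finset α, ∑ δ ∈ depths α R,
            (if decRel R E F rk δ δ' n U then wt π δ * p0 ^ U.card else 0)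
        = ∑ U : Finset α, if Adm R E F rk n δ' U ∧ n ≤ E * U.card then
          wt π δ' * ∏ x ∈ U, (p0 / π (δ' x)) else 0 :=
      sum_congr rfl fun U _ => by
        convert cost_inner_eq R E F rk hpos hsum (p0 := p0) hδ' n U
    rw [e1, ← sum_filter, ← mul_sum]
    refine mul_le_mul_of_nonneg_left ?_ (hwt δ')
    have := count_adm R E F rk hrk2 n δ' (fun t => p0 / π t)
      (fun t => div_nonneg hp0 (hpos t).le)
    convert this
  calc _ ≤ _ := s1
    _ = _ := s2
    _ ≤ ∑ δ' ∈ depths α R, ∑ n ∈ Icc 1 (E * Fintype.card α),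
          wt π δ' * ∑ u ∈ (Fintype.piFinset
              (fun _ : Fin R => range (Fintype.card α + 1))).filter
            (fun u => n ≤ E * ∑ t, u t),
          ∏ t : Fin R, (((n * 2 ^ (t : ℕ)).choose (u t) : ℕ) : ℝ) * (p0 / π t) ^ (u t) :=
        sum_le_sum fun δ' hδ' => sum_le_sum fun n hn => s3 δ' hδ' n hn
    _ = (∑ δ' ∈ depths α R, wt π δ') * Bsum R E (Fintype.card α) (fun t => p0 / π t) := by
        rw [sum_mul]
        refine sum_congr rfl fun δ' _ => ?_
        rw [← mul_sum]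
        rfl
    _ = _ := by rw [wt_sum R hsum, one_mul]

end Claimed.Agent.R099
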