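import Claimed.Agent.R099.Chain
import Claimed.Agent.R099.Measure
import Claimed.Agent.R099.BsumBound
import Claimed.Agent.R099.GammaExp

/-! Row 99, S0212: assembly. -/

set_option autoImplicit false

namespace Claimed.Agent.R099

open Finset
open Claims.C0177.TalagrandThreshold

variable {α : Type*} [Fintype α] [DecidableEq α]

/-- normalised fractional cover -/
noncomputable def g2 (g : Finset α → ℝ) (A : Finset α) : ℝ := if A = ∅ then 0 else 2 * g A

omit [Fintype α] in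
lemma g2_nonneg {g : Finset α → ℝ} (hg : ∀ A, 0 ≤ g A) (A : Finset α) : 0 ≤ g2 g A := by
  unfold g2
  split_ifs
  · exact le_rfl
  · have := hg A
    linarith

omit [Fintype α] in
lemma g2_empty (g : Finset α → ℝ) : g2 g ∅ = 0 := by
  simp [g2]

omit [Fintype α] in
lemma g2_cover {g : Finset α → ℝ} (hg0 : g ∅ ≤ 1 / 2) {H : Finset α}
    (hH : 1 ≤ ∑ S ∈ H.powerset, g S) : 1 ≤ ∑ S ∈ H.powerset, g2 g S := by
  have h1 : ∀ S : Finset α, g2 g S = 2 * g S - (if S = ∅ then 2 * g ∅ else 0) := by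
    intro S
    unfold g2
    split_ifs with h
    · rw [h]; ring
    · ring
  have h2 : ∑ S ∈ H.powerset, g2 g S = 2 * ∑ S ∈ H.powerset, g S - 2 * g ∅ := by
    rw [sum_congr rfl (fun S _ => h1 S), sum_sub_distrib, ← mul_sum, sum_ite_eq' ]
    simp
  rw [h2]
  linarith

lemma g2_cost {g : Finset α → ℝ} (hg : ∀ A, 0 ≤ g A) {p p1 : ℝ} (hp1 : 0 ≤ p1)
    (hp : 16 * p1 ≤ p / 5) (hcost : ∑ S : Finset α, g S * p ^ S.card ≤ 1 / 2) :
    ∑ A : Finset α, g2 g A * (8 * (2 * p1)) ^ A.card ≤ 1 / 5 := by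
  have hp0 : 0 ≤ p := by linarith
  have hterm : ∀ A : Finset α, g2 g A * (8 * (2 * p1)) ^ A.card ≤ (2 / 5 : ℝ) * (g A * p ^ A.card) := by
    intro A
    unfold g2
    split_ifs with h
    · have := mul_nonneg (hg A) (pow_nonneg hp0 A.card)
      linarith
    · have hcard : 1 ≤ A.card := Finset.card_pos.mpr (Finset.nonempty_iff_ne_empty.mpr h)
      have h1 : (8 * (2 * p1)) ^ A.card ≤ (p / 5) ^ A.card :=
        pow_le_pow_left₀ (by positivity) (by linarith) _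
      have h2 : (p / 5) ^ A.card = (1 / 5 : ℝ) ^ A.card * p ^ A.card := by
        rw [← mul_pow]; congr 1; ring
      have h3 : (1 / 5 : ℝ) ^ A.card ≤ 1 / 5 := by
        calc (1 / 5 : ℝ) ^ A.card ≤ (1 / 5 : ℝ) ^ 1 :=
              pow_le_pow_of_le_one (by norm_num) (by norm_num) hcard
          _ = 1 / 5 := by norm_num
      have h4 : 0 ≤ p ^ A.card := pow_nonneg hp0 _
      have h5 : (8 * (2 * p1)) ^ A.card ≤ (1 / 5 : ℝ) * p ^ A.card := by
        rw [h2] at h1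
        exact h1.trans (mul_le_mul_of_nonneg_right h3 h4)
      have h6 := mul_le_mul_of_nonneg_left h5 (by have := hg A; linarith : (0 : ℝ) ≤ 2 * g A)
      calc 2 * g A * (8 * (2 * p1)) ^ A.card ≤ 2 * g A * (1 / 5 * p ^ A.card) := h6
        _ = 2 / 5 * (g A * p ^ A.card) := by ring
  calc ∑ A : Finset α, g2 g A * (8 * (2 * p1)) ^ A.card
      ≤ ∑ A : Finset α, (2 / 5 : ℝ) * (g A * p ^ A.card) := sum_le_sum (fun A _ => hterm A)
    _ = (2 / 5 : ℝ) * ∑ A : Finset α, g A * p ^ A.card := by rw [mul_sum]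
    _ ≤ 1 / 5 := by linarith

lemma exists_R {p : ℝ} (hp0 : 0 < p) (hp1 : p ≤ 1) :
    ∃ R : ℕ, (1 / 4 : ℝ) ^ R ≤ p / 80 ∧ p / 320 ≤ (1 / 4 : ℝ) ^ R := by
  obtain ⟨n, h1, h2⟩ := exists_nat_pow_near_of_lt_one (x := p / 80) (y := (1 / 4 : ℝ))
    (by positivity) (by linarith) (by norm_num) (by norm_num)
  refine ⟨n + 1, h1.le, ?_⟩
  rw [pow_succ]
  linarith

omit [Fintype α] [DecidableEq α] in
lemma small_mono {p p' : ℝ} (hp : 0 ≤ p) (hpp : p ≤ p') {F : Family α} (h : Small p' F) :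
    Small p F := by
  obtain ⟨G, hG, hc⟩ := h
  refine ⟨G, hG, le_trans ?_ hc⟩
  unfold cost
  exact sum_le_sum (fun S _ => pow_le_pow_left₀ hp hpp _)

lemma exists_depth (R : ℕ) {π : ℕ → ℝ} (hπ : ∀ t, 0 ≤ π t)
    (hsum : ∑ t ∈ range (R + 1), π t = 1) (f : (α → ℕ) → ℝ)
    (hf : ∑ δ ∈ depths α R, wt π δ * f δ < 1) : ∃ δ ∈ depths α R, f δ < 1 := by
  by_contra hcon
  have hcon' : ∀ δ ∈ depths α R, 1 ≤ f δ := by
    intro δ hδ
    by_contra h
    exact hcon ⟨δ, hδ, not_le.mp h⟩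
  have h1 : ∑ δ ∈ depths α R, wt π δ ≤ ∑ δ ∈ depths α R, wt π δ * f δ := by
    apply sum_le_sum
    intro δ hδ
    have := mul_le_mul_of_nonneg_left (hcon' δ hδ) (wt_nonneg hπ δ)
    linarith
  rw [wt_sum R hsum] at h1
  linarith

theorem small_of_fractionalSmall {p : ℝ} (hp0 : 0 < p) (hp1 : p ≤ 1) (F : Family α)
    (h : FractionalSmall p F) : Small (p / (320 * 2 ^ 18)) F := by
  obtain ⟨g, ⟨hg01, hcov⟩, hcost⟩ := h
  have hg : ∀ A, 0 ≤ g A := fun A => (hg01 A).1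
  have hcost' : ∑ S : Finset α, g S * p ^ S.card ≤ 1 / 2 := hcost
  have hgempty : g ∅ ≤ 1 / 2 := by
    have h1 : g ∅ * p ^ (∅ : Finset α).card ≤ ∑ S : Finset α, g S * p ^ S.card :=
      single_le_sum (f := fun S : Finset α => g S * p ^ S.card)
        (fun S _ => mul_nonneg (hg S) (pow_nonneg hp0.le _)) (mem_univ _)
    simp only [card_empty, pow_zero, mul_one] at h1
    linarith
  obtain ⟨R, hR1, hR2⟩ := exists_R hp0 hp1
  set p1 : ℝ := (1 / 4 : ℝ) ^ R with hp1def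
  have hp1pos : 0 < p1 := by positivity
  set p0 : ℝ := p1 * (1 / 2) ^ 18 with hp0def
  have hp0pos : 0 < p0 := by positivity
  have hrk1 : ∀ Y : Finset α, ∀ x ∈ Y, 1 ≤ rkOf (g2 g) Y x :=
    fun Y x hx => one_le_wrank _ hx
  have hrk2 : ∀ (Y : Finset α) (m : ℕ), (Y.filter (fun x => rkOf (g2 g) Y x ≤ m)).card ≤ m :=
    fun Y m => card_wrank_le _ Y m
  -- cost
  have hA : ∑ δ ∈ depths α R, wt (piW R) δ * ∑ U ∈ Ucal R 4 F (rkOf (g2 g)) δ, p0 ^ U.card
      ≤ 1 / 4 := by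
    refine (cost_le_Bsum R 4 F (rkOf (g2 g)) hrk2 (piW_pos R) (piW_sum R) hp0pos.le).trans ?_
    apply Bsum_le
    · intro t
      exact div_nonneg hp0pos.le (piW_pos R t).le
    · intro t
      rw [div_le_iff₀ (piW_pos R t)]
      have h1 := piW_ge R t
      have h2 : (0 : ℝ) ≤ (4 / 3 : ℝ) * (1 / 2) ^ 18 * (1 / 4) ^ t := by positivity
      calc p0 = (4 / 3 : ℝ) * (1 / 2) ^ 18 * (1 / 4) ^ t * ((3 / 4 : ℝ) * 4 ^ t * (1 / 4 : ℝ) ^ R) := by
            have : (1 / 4 : ℝ) ^ t * 4 ^ t = 1 := by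
              rw [← mul_pow]; norm_num
            rw [hp0def, hp1def]
            linear_combination (-(1 / 2 : ℝ) ^ 18 * (1 / 4 : ℝ) ^ R) * this
        _ ≤ _ := mul_le_mul_of_nonneg_left h1 h2
  -- rare event
  have hB : ∑ δ ∈ depths α R, wt (piW R) δ * Gam (g2 g) δ ≤ 1 / 5 := by
    refine (exp_gam_le (g2_nonneg hg) R (fun t => (piW_pos R t).le) (piW_sum R)
      (piW_sum8 R)).trans ?_
    exact g2_cost hg hp1pos.le (by linarith) hcost'
  -- choose δ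
  obtain ⟨δ, hδ, hlt⟩ := exists_depth (α := α) R (fun t => (piW_pos R t).le) (piW_sum R)
    (fun δ => 2 * Gam (g2 g) δ + 2 * ∑ U ∈ Ucal R 4 F (rkOf (g2 g)) δ, p0 ^ U.card) (by
      have : ∑ δ ∈ depths α R, wt (piW R) δ *
          (2 * Gam (g2 g) δ + 2 * ∑ U ∈ Ucal R 4 F (rkOf (g2 g)) δ, p0 ^ U.card)
          = 2 * ∑ δ ∈ depths α R, wt (piW R) δ * Gam (g2 g) δ
            + 2 * ∑ δ ∈ depths α R, wt (piW R) δ * ∑ U ∈ Ucal R 4 F (rkOf (g2 g)) δ, p0 ^ U.card := by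
        rw [mul_sum, mul_sum, ← sum_add_distrib]
        apply sum_congr rfl
        intro δ _
        ring
      rw [this]
      linarith)
  have hδR : ∀ x, δ x ≤ R := mem_depths.mp hδ
  have hcostnn : 0 ≤ ∑ U ∈ Ucal R 4 F (rkOf (g2 g)) δ, p0 ^ U.card :=
    sum_nonneg (fun U _ => pow_nonneg hp0pos.le _)
  have hGamnn : 0 ≤ Gam (g2 g) δ := by
    unfold Gam
    apply sum_nonneg
    intro A _
    split_ifs
    · exact g2_nonneg hg A
    · exact le_rfl
  have hsmall : Small p0 F := by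
    refine ⟨Ucal R 4 F (rkOf (g2 g)) δ, ?_, ?_⟩
    · rcases covers_or_captured R 4 F (rkOf (g2 g)) hrk1 δ with ⟨Y, hYF, hcap⟩ | hc
      · exfalso
        have := gam_ge_of_captured (g2_nonneg hg) (g2_empty g) R
          (g2_cover hgempty (hcov Y hYF)) hδR hcap
        linarith
      · exact hc
    · show ∑ U ∈ Ucal R 4 F (rkOf (g2 g)) δ, p0 ^ U.card ≤ 1 / 2
      linarith
  refine small_mono (by positivity) ?_ hsmall
  rw [hp0def, div_le_iff₀ (by positivity)]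
  have : p1 * (1 / 2) ^ 18 * (320 * 2 ^ 18) = 320 * p1 := by
    have h2 : (1 / 2 : ℝ) ^ 18 * 2 ^ 18 = 1 := by rw [← mul_pow]; norm_num
    linear_combination (320 * p1) * h2
  rw [this]
  linarith

end Claimed.Agent.R099
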