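import Claimed.Agent.R099.Defs

/-! Row 99, S0212: weak ranks and the layer-cake lemma. -/

set_option autoImplicit false

namespace Claimed.Agent.R099

open Finset

variable {α : Type*} [DecidableEq α]

/-- weak rank of `x` in `Y` with respect to the weights `lam` (large weights first) -/
noncomputable def wrank (lam : α → ℝ) (Y : Finset α) (x : α) : ℕ :=
  (Y.filter (fun y => lam x ≤ lam y)).card

lemma one_le_wrank (lam : α → ℝ) {Y : Finset α} {x : α} (hx : x ∈ Y) : 1 ≤ wrank lam Y x := by
  unfold wrank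
  rw [Nat.succ_le_iff, card_pos]
  exact ⟨x, by rw [mem_filter]; exact ⟨hx, le_refl _⟩⟩

lemma card_wrank_le (lam : α → ℝ) (Y : Finset α) (m : ℕ) :
    (Y.filter (fun x => wrank lam Y x ≤ m)).card ≤ m := by
  rcases (Y.filter (fun x => wrank lam Y x ≤ m)).eq_empty_or_nonempty with he | hne
  · rw [he]; simp
  · obtain ⟨x0, hx0, hmin⟩ := exists_min_image _ lam hne
    rw [mem_filter] at hx0
    refine le_trans (card_le_card ?_) hx0.2
    intro y hy
    have h1 := hmin y hy
    rw [mem_filter] at hy ⊢
    exact ⟨hy.1, h1⟩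

/-- abstract layer cake: if all upper level sets of `lam` have nonnegative `a`-mass then
`∑ lam * a ≥ 0`. -/
lemma rk_level_sum_nonneg (a : α → ℝ) : ∀ (n : ℕ) (Y : Finset α) (lam : α → ℝ), Y.card ≤ n →
    (∀ y ∈ Y, 0 ≤ lam y) → (∀ t : ℝ, 0 ≤ ∑ y ∈ Y.filter (fun y => t ≤ lam y), a y) →
    0 ≤ ∑ y ∈ Y, lam y * a y := by
  intro n
  induction n with
  | zero =>
    intro Y lam hY _ _
    have : Y = ∅ := by rwa [Nat.le_zero, card_eq_zero] at hY
    rw [this]; simp
  | succ n ih =>
    intro Y lam hY hlam hlev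
    rcases Y.eq_empty_or_nonempty with he | hne
    · rw [he]; simp
    obtain ⟨x0, hx0, hmin⟩ := exists_min_image Y lam hne
    set μ := lam x0 with hμ
    set Y' := Y.filter (fun y => μ < lam y) with hY'
    have hsplit : ∑ y ∈ Y, lam y * a y = μ * ∑ y ∈ Y, a y + ∑ y ∈ Y', (lam y - μ) * a y := by
      have h1 : ∑ y ∈ Y', (lam y - μ) * a y = ∑ y ∈ Y, (lam y - μ) * a y := by
        rw [hY', sum_filter]
        apply sum_congr rfl
        intro y hy
        split_ifs with h
        · rfl
        · have : lam y = μ := le_antisymm (not_lt.mp h) (hmin y hy)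
          rw [this]; ring
      rw [h1, mul_sum, ← sum_add_distrib]
      apply sum_congr rfl
      intro y _
      ring
    have hfirst : 0 ≤ μ * ∑ y ∈ Y, a y := by
      apply mul_nonneg (hlam x0 hx0)
      have := hlev μ
      rwa [filter_true_of_mem (fun y hy => hmin y hy)] at this
    have hcard : Y'.card ≤ n := by
      have hlt : Y'.card < Y.card := by
        apply card_lt_card
        rw [ssubset_iff_of_subset (filter_subset _ _)]
        refine ⟨x0, hx0, ?_⟩
        rw [mem_filter]
        intro h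
        exact lt_irrefl _ h.2
      omega
    have hsecond : 0 ≤ ∑ y ∈ Y', (lam y - μ) * a y := by
      apply ih Y' (fun y => lam y - μ) hcard
      · intro y hy
        rw [hY', mem_filter] at hy
        exact sub_nonneg.mpr hy.2.le
      · intro t
        rcases Y'.eq_empty_or_nonempty with he' | hne'
        · rw [he']; simp
        obtain ⟨x1, hx1, hmin1⟩ := exists_min_image Y' lam hne'
        have hx1' : μ < lam x1 := by
          rw [hY', mem_filter] at hx1; exact hx1.2
        have hEq : Y'.filter (fun y => t ≤ lam y - μ)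
            = Y.filter (fun y => max (t + μ) (lam x1) ≤ lam y) := by
          ext y
          simp only [hY', mem_filter, max_le_iff]
          constructor
          · rintro ⟨⟨hy, hy1⟩, hy2⟩
            refine ⟨hy, by linarith, hmin1 y ?_⟩
            rw [hY', mem_filter]; exact ⟨hy, hy1⟩
          · rintro ⟨hy, hy1, hy2⟩
            exact ⟨⟨hy, lt_of_lt_of_le hx1' hy2⟩, by linarith⟩
        rw [hEq]
        exact hlev _
    rw [hsplit]
    exact add_nonneg hfirst hsecond

/-- layer cake: if `Q` has density at most `c` in every prefix then its weight is at most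
`c` times the total weight. -/
theorem layer_cake (lam : α → ℝ) (Y Q : Finset α) (hQ : Q ⊆ Y) (hlam : ∀ x ∈ Y, 0 ≤ lam x)
    (c : ℝ) (hc : 0 ≤ c)
    (h : ∀ m : ℕ, ((Q.filter (fun x => wrank lam Y x ≤ m)).card : ℝ) ≤ c * m) :
    ∑ x ∈ Q, lam x ≤ c * ∑ x ∈ Y, lam x := by
  have key := rk_level_sum_nonneg (fun y => c - (if y ∈ Q then (1 : ℝ) else 0)) Y.card Y lam
    le_rfl hlam ?_
  · have h1 : ∑ y ∈ Y, lam y * (c - (if y ∈ Q then (1 : ℝ) else 0))
        = c * ∑ x ∈ Y, lam x - ∑ x ∈ Q, lam x := by
      have h2 : ∑ x ∈ Q, lam x = ∑ x ∈ Y, (if x ∈ Q then lam x else 0) := by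
        rw [← sum_filter, filter_mem_eq_inter, inter_eq_right.mpr hQ]
      rw [h2, mul_sum, ← sum_sub_distrib]
      apply sum_congr rfl
      intro y _
      split_ifs <;> ring
    rw [h1] at key
    linarith
  · intro t
    have h3 : ∑ y ∈ Y.filter (fun y => t ≤ lam y), (c - (if y ∈ Q then (1 : ℝ) else 0))
        = c * ((Y.filter (fun y => t ≤ lam y)).card : ℝ)
          - ((Q.filter (fun y => t ≤ lam y)).card : ℝ) := by
      rw [sum_sub_distrib, sum_const, nsmul_eq_mul, ← sum_filter, sum_const, nsmul_eq_mul,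
        mul_one, mul_comm]
      congr 3
      ext y
      simp only [mem_filter]
      constructor
      · rintro ⟨⟨_, h2⟩, h3⟩; exact ⟨h3, h2⟩
      · rintro ⟨h2, h3⟩; exact ⟨⟨hQ h2, h3⟩, h2⟩
    rw [h3, sub_nonneg]
    refine le_trans ?_ (h _)
    rw [Nat.cast_le]
    apply card_le_card
    intro x hx
    rw [mem_filter] at hx ⊢
    refine ⟨hx.1, ?_⟩
    unfold wrank
    apply card_le_card
    intro y hy
    rw [mem_filter] at hy ⊢
    exact ⟨hy.1, le_trans hx.2 hy.2⟩

end Claimed.Agent.R099
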